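import Vale.Agent.P286.H761.Xi
import Vale.Agent.P286.H374.GauH
import Vale.Agent.P286.H273.WkG
import Vale.Agent.P286.H459.GCo
import Vale.Agent.P286.H166.Wk2

/-!
# The gauge functor of the Weil algebra
-/

namespace Vale.Agent.P286.H761

open CategoryTheory TensorProduct Vale.Agent.P286.Gen Vale.Agent.P286.H295 Vale.Agent.P286.H847
  Vale.Agent.P286.H847.GD Vale.Agent.P286.H847.SGD Vale.Agent.P286.H697 Vale.Agent.P286.H710
  Vale.Agent.P286.H987 Vale.Agent.P286.H374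

noncomputable section

variable {N : ℕ} {Γ : Gps N} {I : Type} [Fintype I] [DecidableEq I]

/-- The two powers of the sign operator. -/
theorem sgp_eq_sA (n : ℕ) (p : ℤ) (w : Wk I n) :
    sgp (WK I n) p w = H459.sA (Gau.wq I n) p w := by
  by_cases h : Even p
  · rw [sgp_even h, H459.sA_even _ h]
  · rw [sgp_odd h, H459.sA_odd _ h]
    rfl

theorem tco_eq_sT (n : ℕ) (p : ℤ) {F G : GD} (f : F.V →ₗ[ℂ] G.V) :
    tco (WK I n) p f = H459.sT (Gau.wq I n) p f := by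
  apply TensorProduct.ext'
  intro w x
  exact congrArg (· ⊗ₜ[ℂ] f x) (sgp_eq_sA n p w)

/-- **The gauge functor of the Weil algebra.** -/
def gauX (n : ℕ) (R : Rpn Γ I) : GauX Γ (WK I n) n where
  e := Wk.e I n
  e_e := Wk.e_e
  e_d := Wk.e_d
  e_sg := Wk.e_sg
  e_gr t _ _ hx := Wk.e_gr t hx
  map F {X Y} φ := Gau.gm1 n R φ (fib F X) (fib F Y) (fibt F φ)
  map_id F X z := Gau.gm1_id R _ _ (fun x => F.t_id X x) z
  map_comp F {X Y Z} φ ψ z := Gau.gm1_comp R φ ψ _ _ _ _ _ _ (fibt_smul F ψ)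
    (fun x => F.t_comp φ ψ x) z
  map_e F {X Y} φ i z := H273.G_e i z
  map_co {F G p} c {X Y} φ z := by
    rw [tco_eq_sT, tco_eq_sT]
    exact H459.G_co (Gau.wq I n) (M := fib F X) (N := fib G X) (M' := fib F Y) (N' := fib G Y) p
      (c.f X) (c.f Y) (c.smul Y) (fibt F φ).f (fibt G φ).f (fun x => c.tr φ x) _ _ z
  eps := (Wk.eps I n).toLinearMap
  eps_d := Wk.eps_d
  eps_sg := Wk.eps_sg
  eps_gr _ hm _ hx := Wk.eps_gr hm hx

theorem gauX_map (n : ℕ) (R : Rpn Γ I) (F : OmF (BGT Γ)) {X Y : Gen.BGObj Γ} (φ : X ⟶ Y) :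
    (gauX n R).map F φ = Gau.gm1 n R φ (fib F X) (fib F Y) (fibt F φ) := rfl

theorem gauX_wk [Algebra.Smooth ℂ (Of Γ)] (n : ℕ) (R : Rpn Γ I) (F : OmF (BGT Γ)) :
    (gauX n R).wk F = Gau.wkF R n F := rfl

end

end Vale.Agent.P286.H761
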