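import Vale.Agent.P286.H847.GD2

/-!
# Product totals of semi-cosimplicial graded differential spaces
-/

namespace Vale.Agent.P286.H761

open Vale.Agent.P286.H847 Vale.Agent.P286.H847.GD

/-- A semi-cosimplicial graded differential space.  Only the faces `fc k i` with `i ≤ k + 1` are
used. -/
structure CS : Type 1 where
  X : ℕ → GD
  fc : ∀ k : ℕ, ℕ → Hom (X k) (X (k + 1))
  rel : ∀ (k i j : ℕ), i ≤ j → j ≤ k + 1 → ∀ x,
    (fc (k + 1) (j + 1)).f ((fc k i).f x) = (fc (k + 1) i).f ((fc k j).f x)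

namespace CS

variable (X Y Z : CS)

/-- The alternating sum of the faces. -/
def dl (k : ℕ) : (X.X k).V →ₗ[ℂ] (X.X (k + 1)).V :=
  ∑ i ∈ Finset.range (k + 2), (-1 : ℂ) ^ i • (X.fc k i).f

theorem dl_apply (k : ℕ) (x : (X.X k).V) :
    X.dl k x = ∑ i ∈ Finset.range (k + 2), (-1 : ℂ) ^ i • (X.fc k i).f x := by
  simp [dl]

theorem dl_dl (k : ℕ) (x : (X.X k).V) : X.dl (k + 1) (X.dl k x) = 0 := by
  have h1 : X.dl (k + 1) (X.dl k x) = ∑ p ∈ Finset.range (k + 3) ×ˢ Finset.range (k + 2),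
      (-1 : ℂ) ^ (p.1 + p.2) • (X.fc (k + 1) p.1).f ((X.fc k p.2).f x) := by
    rw [Finset.sum_product, dl_apply]
    refine Finset.sum_congr rfl fun j _ => ?_
    rw [dl_apply, map_sum, Finset.smul_sum]
    refine Finset.sum_congr rfl fun i _ => ?_
    rw [map_smul, smul_smul, pow_add]
  rw [h1]
  refine Finset.sum_involution
    (fun p _ => if p.2 < p.1 then (p.2, p.1 - 1) else (p.2 + 1, p.1)) ?_ ?_ ?_ ?_
  · rintro ⟨j, i⟩ hp
    rw [Finset.mem_product, Finset.mem_range, Finset.mem_range] at hp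
    obtain ⟨hj, hi⟩ := hp
    simp only at hj hi
    by_cases h : i < j
    · obtain ⟨l, rfl⟩ : ∃ l, j = l + 1 := ⟨j - 1, by omega⟩
      simp only [h, if_true, Nat.add_sub_cancel]
      rw [X.rel k i l (by omega) (by omega), ← add_smul,
        show l + 1 + i = (i + l) + 1 by ring, pow_succ]
      simp
    · simp only [h, if_false]
      rw [X.rel k j i (by omega) (by omega), ← add_smul,
        show i + 1 + j = (j + i) + 1 by ring, pow_succ]
      simp
  · rintro ⟨j, i⟩ _ _ h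
    by_cases h' : i < j
    · simp only [h', if_true, Prod.mk.injEq] at h
      omega
    · simp only [h', if_false, Prod.mk.injEq] at h
      omega
  · rintro ⟨j, i⟩ hp
    rw [Finset.mem_product, Finset.mem_range, Finset.mem_range] at hp
    obtain ⟨hj, hi⟩ := hp
    simp only at hj hi
    by_cases h : i < j
    · simp only [h, if_true, Finset.mem_product, Finset.mem_range]
      omega
    · simp only [h, if_false, Finset.mem_product, Finset.mem_range]
      omega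
  · rintro ⟨j, i⟩ _
    by_cases h : i < j
    · simp only [h, if_true]
      rw [if_neg (by omega)]
      ext
      · simp; omega
      · simp
    · simp only [h, if_false]
      rw [if_pos (by omega)]
      simp

theorem dl_d (k : ℕ) (x : (X.X k).V) : X.dl k ((X.X k).d x) = (X.X (k + 1)).d (X.dl k x) := by
  rw [dl_apply, dl_apply, map_sum]
  refine Finset.sum_congr rfl fun i _ => ?_
  rw [map_smul, (X.fc k i).comm]

theorem dl_gr (k : ℕ) (m : ℤ) (x : (X.X k).V) (hx : x ∈ (X.X k).gr m) :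
    X.dl k x ∈ (X.X (k + 1)).gr m := by
  rw [dl_apply]
  exact Submodule.sum_mem _ fun i _ => Submodule.smul_mem _ _ ((X.fc k i).deg m x hx)

/-- The total differential. -/
def D : (∀ k, (X.X k).V) →ₗ[ℂ] (∀ k, (X.X k).V) :=
  LinearMap.pi fun k => match k with
    | 0 => (X.X 0).d.comp (LinearMap.proj 0)
    | (k + 1) => (-1 : ℂ) ^ (k + 1) • (X.X (k + 1)).d.comp (LinearMap.proj (k + 1)) +
        (X.dl k).comp (LinearMap.proj k)

@[simp] theorem D_zero (v : ∀ k, (X.X k).V) : X.D v 0 = (X.X 0).d (v 0) := rfl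

theorem D_succ (v : ∀ k, (X.X k).V) (k : ℕ) :
    X.D v (k + 1) = (-1 : ℂ) ^ (k + 1) • (X.X (k + 1)).d (v (k + 1)) + X.dl k (v k) := rfl

theorem D_D (v : ∀ k, (X.X k).V) : X.D (X.D v) = 0 := by
  funext k
  match k with
  | 0 => exact (X.X 0).dd _
  | 1 =>
    change X.D (X.D v) (0 + 1) = 0
    rw [D_succ, D_succ, D_zero, map_add, map_smul, (X.X (0 + 1)).dd, smul_zero,
      zero_add ((X.X (0 + 1)).d (X.dl 0 (v 0))), X.dl_d 0]
    simp
  | (k + 2) =>
    change X.D (X.D v) (k + 1 + 1) = 0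
    rw [D_succ, D_succ, D_succ, map_add, map_smul, (X.X (k + 1 + 1)).dd, smul_zero, zero_add,
      map_add, dl_dl, add_zero, map_smul, X.dl_d (k + 1), ← add_smul]
    rw [pow_succ (-1 : ℂ) (k + 1)]
    simp

theorem D_deg (v : ∀ k, (X.X k).V) (m : ℤ) (hv : ∀ k : ℕ, v k ∈ (X.X k).gr (m - k)) (k : ℕ) :
    X.D v k ∈ (X.X k).gr (m + 1 - k) := by
  match k with
  | 0 => exact (X.X 0).dgr' (by push_cast; ring) (hv 0)
  | (k + 1) =>
    rw [D_succ]
    refine add_mem (Submodule.smul_mem _ _ ((X.X (k + 1)).dgr' (by push_cast; ring) (hv (k + 1))))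
      ?_
    have h := X.dl_gr k _ _ (hv k)
    rwa [show (m + 1 - ((k + 1 : ℕ) : ℤ)) = m - k by push_cast; ring]

/-- The product total. -/
abbrev Tot : GD where
  V := ∀ k, (X.X k).V
  d := X.D
  dd := X.D_D
  gr m :=
    { carrier := {v | ∀ k : ℕ, v k ∈ (X.X k).gr (m - k)}
      add_mem' := fun ha hb k => add_mem (ha k) (hb k)
      zero_mem' := fun _ => zero_mem _
      smul_mem' := fun c _ hx k => Submodule.smul_mem _ c (hx k) }
  dgr m v hv k := X.D_deg v m hv k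

theorem mem_Tot_gr {v : ∀ k, (X.X k).V} {m : ℤ} :
    v ∈ X.Tot.gr m ↔ ∀ k : ℕ, v k ∈ (X.X k).gr (m - k) := Iff.rfl

/-- The total differential is lower triangular. -/
theorem D_tri (v : ∀ k, (X.X k).V) (k : ℕ) (h : ∀ j < k, v j = 0) :
    (∀ j < k, X.D v j = 0) ∧ X.D v k = ((-1 : ℂ) ^ k • (X.X k).d) (v k) := by
  have key : ∀ l : ℕ, (∀ j < l, v j = 0) → X.D v l = ((-1 : ℂ) ^ l • (X.X l).d) (v l) := by
    intro l hl
    match l with
    | 0 => simp
    | (l + 1) =>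
      rw [D_succ, hl l (Nat.lt_succ_self l), map_zero, add_zero]
      rfl
  refine ⟨fun j hj => ?_, key k h⟩
  rw [key j (fun i hi => h i (hi.trans hj)), h j hj, map_zero]

variable {X Y Z}

/-- Maps of all degrees between semi-cosimplicial spaces, on the totals.  The number `σ` is the
sign of the degree. -/
def totLin (σ : ℂ) (f : ∀ k, (X.X k).V →ₗ[ℂ] (Y.X k).V) : X.Tot.V →ₗ[ℂ] Y.Tot.V :=
  LinearMap.pi fun k => (σ ^ k • f k).comp (LinearMap.proj k)

theorem totLin_apply (σ : ℂ) (f : ∀ k, (X.X k).V →ₗ[ℂ] (Y.X k).V) (v : X.Tot.V) (k : ℕ) :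
    totLin σ f v k = σ ^ k • f k (v k) := rfl

theorem totLin_comp (σ τ : ℂ) (f : ∀ k, (X.X k).V →ₗ[ℂ] (Y.X k).V)
    (g : ∀ k, (Y.X k).V →ₗ[ℂ] (Z.X k).V) (v : X.Tot.V) :
    totLin τ g (totLin σ f v) = totLin (τ * σ) (fun k => (g k).comp (f k)) v := by
  funext k
  rw [totLin_apply, totLin_apply, totLin_apply, map_smul, smul_smul, mul_pow]
  rfl

theorem totLin_congr {σ : ℂ} {f g : ∀ k, (X.X k).V →ₗ[ℂ] (Y.X k).V} (h : ∀ k x, f k x = g k x)
    (v : X.Tot.V) : totLin σ f v = totLin σ g v := by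
  funext k
  rw [totLin_apply, totLin_apply, h]

theorem totLin_id (v : X.Tot.V) : totLin (Y := X) 1 (fun _ => LinearMap.id) v = v := by
  funext k
  rw [totLin_apply, one_pow, one_smul]
  rfl

/-- The levelwise map commutes with the faces. -/
def FcComm (f : ∀ k, (X.X k).V →ₗ[ℂ] (Y.X k).V) : Prop :=
  ∀ k, ∀ i ≤ k + 1, ∀ x, f (k + 1) ((X.fc k i).f x) = (Y.fc k i).f (f k x)

theorem FcComm.dl {f : ∀ k, (X.X k).V →ₗ[ℂ] (Y.X k).V} (h : FcComm f) (k : ℕ) (x : (X.X k).V) :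
    f (k + 1) (X.dl k x) = Y.dl k (f k x) := by
  rw [dl_apply, dl_apply, map_sum]
  refine Finset.sum_congr rfl fun i hi => ?_
  rw [Finset.mem_range] at hi
  rw [map_smul, h k i (by omega)]

theorem FcComm.comp {f : ∀ k, (X.X k).V →ₗ[ℂ] (Y.X k).V} {g : ∀ k, (Y.X k).V →ₗ[ℂ] (Z.X k).V}
    (hg : FcComm g) (hf : FcComm f) : FcComm (fun k => (g k).comp (f k)) := by
  intro k i hi x
  rw [LinearMap.comp_apply, LinearMap.comp_apply, hf k i hi, hg k i hi]

/-- A levelwise map with `f d = σ d f`, commutes up to `σ` with the total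
differential. -/
theorem totLin_D {σ : ℂ} {f : ∀ k, (X.X k).V →ₗ[ℂ] (Y.X k).V} (hf : FcComm f)
    (hd : ∀ k x, f k ((X.X k).d x) = σ • (Y.X k).d (f k x)) (v : X.Tot.V) :
    totLin σ f (X.Tot.d v) = σ • Y.Tot.d (totLin σ f v) := by
  funext k
  match k with
  | 0 =>
    change σ ^ 0 • f 0 ((X.X 0).d (v 0)) = σ • (Y.X 0).d (σ ^ 0 • f 0 (v 0))
    rw [pow_zero, one_smul, one_smul, hd]
  | (k + 1) =>
    change σ ^ (k + 1) • f (k + 1) ((-1 : ℂ) ^ (k + 1) • (X.X (k + 1)).d (v (k + 1)) +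
        X.dl k (v k)) = σ • ((-1 : ℂ) ^ (k + 1) • (Y.X (k + 1)).d (σ ^ (k + 1) • f (k + 1)
        (v (k + 1))) + Y.dl k (σ ^ k • f k (v k)))
    rw [map_add, map_smul, hd, hf.dl, map_smul, map_smul, smul_add, smul_add, smul_smul,
      smul_smul, smul_smul, smul_smul, smul_smul]
    congr 1
    · congr 1
      ring
    · congr 1
      rw [pow_succ]
      ring

theorem totLin_gr {σ : ℂ} {f : ∀ k, (X.X k).V →ₗ[ℂ] (Y.X k).V} {p : ℤ}
    (hp : ∀ k m, ∀ x ∈ (X.X k).gr m, f k x ∈ (Y.X k).gr (m + p)) (m : ℤ) (v : X.Tot.V)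
    (hv : v ∈ X.Tot.gr m) : totLin σ f v ∈ Y.Tot.gr (m + p) := by
  intro k
  rw [totLin_apply]
  refine Submodule.smul_mem _ _ ?_
  have := hp k _ _ (hv k)
  rwa [show m + p - (k : ℤ) = m - k + p by ring]

theorem totLin_add (σ : ℂ) (f g : ∀ k, (X.X k).V →ₗ[ℂ] (Y.X k).V) (v : X.Tot.V) :
    totLin σ (fun k => f k + g k) v = totLin σ f v + totLin σ g v := by
  funext k
  change σ ^ k • (f k + g k) (v k) = σ ^ k • f k (v k) + σ ^ k • g k (v k)
  rw [LinearMap.add_apply, smul_add]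

theorem totLin_smul (σ c : ℂ) (f : ∀ k, (X.X k).V →ₗ[ℂ] (Y.X k).V) (v : X.Tot.V) :
    totLin σ (fun k => c • f k) v = c • totLin σ f v := by
  funext k
  change σ ^ k • (c • f k) (v k) = c • σ ^ k • f k (v k)
  rw [LinearMap.smul_apply, smul_comm]

theorem totLin_zero (σ : ℂ) (v : X.Tot.V) :
    totLin (Y := Y) σ (fun _ => 0) v = 0 := by
  funext k
  change σ ^ k • (0 : (X.X k).V →ₗ[ℂ] (Y.X k).V) (v k) = 0
  rw [LinearMap.zero_apply, smul_zero]

/-- Levelwise relations of the form `g f = c f' g'` pass to the totals. -/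
theorem totLin_rel {Y' : CS} {σ τ c : ℂ} {f : ∀ k, (X.X k).V →ₗ[ℂ] (Y.X k).V}
    {g : ∀ k, (Y.X k).V →ₗ[ℂ] (Z.X k).V} {g' : ∀ k, (X.X k).V →ₗ[ℂ] (Y'.X k).V}
    {f' : ∀ k, (Y'.X k).V →ₗ[ℂ] (Z.X k).V}
    (h : ∀ k x, g k (f k x) = c • f' k (g' k x)) (v : X.Tot.V) :
    totLin τ g (totLin σ f v) = c • totLin σ f' (totLin τ g' v) := by
  rw [totLin_comp, totLin_comp, ← totLin_smul, mul_comm σ τ]
  exact totLin_congr h v

/-- Levelwise relations `g f = 0` pass to the totals. -/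
theorem totLin_rel_zero {σ τ : ℂ} {f : ∀ k, (X.X k).V →ₗ[ℂ] (Y.X k).V}
    {g : ∀ k, (Y.X k).V →ₗ[ℂ] (Z.X k).V} (h : ∀ k x, g k (f k x) = 0) (v : X.Tot.V) :
    totLin τ g (totLin σ f v) = 0 := by
  rw [totLin_comp, ← totLin_zero (Y := Z) (τ * σ) v]
  exact totLin_congr (fun k x => h k x) v

/-- A morphism of semi-cosimplicial graded differential spaces. -/
structure Mor (X Y : CS) where
  f : ∀ k, Hom (X.X k) (Y.X k)
  face : FcComm fun k => (f k).f

/-- The map of totals. -/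
def Mor.tot (u : Mor X Y) : Hom X.Tot Y.Tot where
  f := totLin 1 fun k => (u.f k).f
  comm v := by
    rw [totLin_D u.face (fun k x => by rw [(u.f k).comm, one_smul]), one_smul]
  deg m v hv := by
    have := totLin_gr (σ := 1) (p := 0) (f := fun k => (u.f k).f)
      (fun k m x hx => by rw [add_zero]; exact (u.f k).deg m x hx) m v hv
    rwa [add_zero] at this

theorem Mor.tot_apply (u : Mor X Y) (v : X.Tot.V) (k : ℕ) :
    (u.tot.f v : ∀ k, (Y.X k).V) k = (u.f k).f (v k) := by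
  change (1 : ℂ) ^ k • (u.f k).f (v k) = _
  rw [one_pow, one_smul]

/-- The identity. -/
def Mor.id (X : CS) : Mor X X := ⟨fun _ => Hom.id _, fun _ _ _ _ => rfl⟩

/-- The composition. -/
def Mor.comp (v : Mor Y Z) (u : Mor X Y) : Mor X Z :=
  ⟨fun k => (v.f k).comp (u.f k), v.face.comp u.face⟩

theorem Mor.tot_comp (v : Mor Y Z) (u : Mor X Y) (x : X.Tot.V) :
    (v.comp u).tot.f x = v.tot.f (u.tot.f x) := by
  funext k
  change (1 : ℂ) ^ k • (v.f k).f ((u.f k).f (x k)) =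
    (1 : ℂ) ^ k • (v.f k).f ((1 : ℂ) ^ k • (u.f k).f (x k))
  rw [one_pow, one_smul, one_smul, one_smul]

theorem Mor.tot_id (x : X.Tot.V) : (Mor.id X).tot.f x = x := totLin_id x

/-- A levelwise quasi-isomorphism induces a quasi-isomorphism of product totals. -/
theorem Mor.qis_tot (u : Mor X Y) (h : ∀ k, Qis (u.f k)) : Qis u.tot := by
  intro m
  have hs : ∀ k : ℕ, (-1 : ℂ) ^ k * (-1 : ℂ) ^ k = 1 := fun k => by
    rw [← mul_pow]; norm_num
  have H := Qis.levels (E := fun k => (X.X k).V) (E' := fun k => (Y.X k).V)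
    X.D (fun k => (-1 : ℂ) ^ k • (X.X k).d) (fun k m => (X.X k).gr (m - k)) X.D_D X.D_tri
    (fun v m hv k => X.D_deg v m hv k)
    Y.D (fun k => (-1 : ℂ) ^ k • (Y.X k).d) (fun k m => (Y.X k).gr (m - k)) Y.D_D Y.D_tri
    (fun v m hv k => Y.D_deg v m hv k)
    u.tot.f (fun k => (u.f k).f) (fun v => u.tot.comm v)
    (fun v k hv => ⟨fun j hj => by rw [u.tot_apply, hv j hj, map_zero], u.tot_apply v k⟩)
    (fun v m hv k => by rw [u.tot_apply]; exact (u.f k).deg _ _ (hv k))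
    (by
      intro k m
      have e : m - 1 - (k : ℤ) = m - k - 1 := by ring
      refine ⟨?_, ?_⟩
      · rintro x hx hd ⟨y, hy, hy'⟩
        rw [e] at hy
        have hd' : (X.X k).d x = 0 := by
          have := congrArg (fun z => (-1 : ℂ) ^ k • z) hd
          simpa [smul_smul, hs] using this
        obtain ⟨x', hx', ex⟩ := (h k (m - k)).1 x hx hd' ⟨(-1 : ℂ) ^ k • y,
          Submodule.smul_mem _ _ hy, by rw [map_smul]; exact hy'⟩
        refine ⟨(-1 : ℂ) ^ k • x', ?_, ?_⟩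
        · rw [e]; exact Submodule.smul_mem _ _ hx'
        · rw [LinearMap.smul_apply, map_smul, smul_smul, hs, one_smul, ex]
      · rintro y hy hd
        have hd' : (Y.X k).d y = 0 := by
          have := congrArg (fun z => (-1 : ℂ) ^ k • z) hd
          simpa [smul_smul, hs] using this
        obtain ⟨x, hx, hdx, y', hy', ey⟩ := (h k (m - k)).2 y hy hd'
        refine ⟨x, hx, ?_, (-1 : ℂ) ^ k • y', ?_, ?_⟩
        · rw [LinearMap.smul_apply, hdx, smul_zero]
        · rw [e]; exact Submodule.smul_mem _ _ hy'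
        · rw [LinearMap.smul_apply, map_smul, smul_smul, hs, one_smul, ey])
    m
  exact H

/-- The total of levelwise exact spaces is exact. -/
theorem exact_tot (h : ∀ k, (X.X k).Exact) : X.Tot.Exact := by
  intro m v hv hd
  have hs : ∀ k : ℕ, (-1 : ℂ) ^ k * (-1 : ℂ) ^ k = 1 := fun k => by
    rw [← mul_pow]; norm_num
  obtain ⟨w, hw, e⟩ := exact_levels (E := fun k => (X.X k).V)
    X.D (fun k => (-1 : ℂ) ^ k • (X.X k).d) (fun k m => (X.X k).gr (m - k)) X.D_D X.D_tri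
    (fun v m hv k => X.D_deg v m hv k)
    (by
      intro k m x hx hd
      have e : m - 1 - (k : ℤ) = m - k - 1 := by ring
      have hd' : (X.X k).d x = 0 := by
        have := congrArg (fun z => (-1 : ℂ) ^ k • z) hd
        simpa [smul_smul, hs] using this
      obtain ⟨y, hy, ey⟩ := h k (m - k) x hx hd'
      refine ⟨(-1 : ℂ) ^ k • y, ?_, ?_⟩
      · rw [e]; exact Submodule.smul_mem _ _ hy
      · rw [LinearMap.smul_apply, map_smul, smul_smul, hs, one_smul, ey])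
    m v hv hd
  exact ⟨w, hw, e⟩

/-! ### Contractions -/

/-- An augmentation. -/
structure Aug (X : CS) (Y : GD) where
  e : Hom Y (X.X 0)
  eq : ∀ y, (X.fc 0 0).f (e.f y) = (X.fc 0 1).f (e.f y)

/-- The augmentation as a map to the total. -/
def Aug.tot {Y : GD} (a : Aug X Y) : Hom Y X.Tot where
  f := (LinearMap.single ℂ (fun k => (X.X k).V) 0).comp a.e.f
  comm y := by
    funext k
    match k with
    | 0 =>
      change _ = (X.X 0).d _
      simp [a.e.comm]
    | 1 =>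
      change _ = (-1 : ℂ) ^ (0 + 1) • (X.X (0 + 1)).d _ + X.dl 0 _
      rw [dl_apply]
      simp [Finset.sum_range_succ, a.eq]
    | (k + 2) =>
      change _ = (-1 : ℂ) ^ (k + 1 + 1) • (X.X (k + 1 + 1)).d _ + X.dl (k + 1) _
      simp
  deg m y hy := by
    intro k
    match k with
    | 0 => simpa using a.e.deg m y hy
    | (k + 1) => simp

theorem Aug.tot_zero {Y : GD} (a : Aug X Y) (y : Y.V) :
    (a.tot.f y : ∀ k, (X.X k).V) 0 = a.e.f y := by
  change (Pi.single 0 (a.e.f y) : ∀ k, (X.X k).V) 0 = _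
  simp

theorem Aug.tot_succ {Y : GD} (a : Aug X Y) (y : Y.V) (k : ℕ) :
    (a.tot.f y : ∀ k, (X.X k).V) (k + 1) = 0 := by
  change (Pi.single 0 (a.e.f y) : ∀ k, (X.X k).V) (k + 1) = _
  simp

/-- Augmentations are compatible with morphisms. -/
theorem Aug.tot_naturality {Y Y' : GD} {X' : CS} (a : Aug X Y) (a' : Aug X' Y') (u : Mor X X')
    (t : Hom Y Y') (h : ∀ y, (u.f 0).f (a.e.f y) = a'.e.f (t.f y)) (y : Y.V) :
    u.tot.f (a.tot.f y) = a'.tot.f (t.f y) := by
  funext k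
  rw [u.tot_apply]
  match k with
  | 0 => rw [a.tot_zero, a'.tot_zero, h]
  | (k + 1) => rw [a.tot_succ, a'.tot_succ, map_zero]

/-- Operators are compatible with augmentations. -/
theorem totLin_aug {Y Y' : GD} {X' : CS} (a : Aug X Y) (a' : Aug X' Y') (σ : ℂ)
    (f : ∀ k, (X.X k).V →ₗ[ℂ] (X'.X k).V) (t : Y.V → Y'.V)
    (h : ∀ y, f 0 (a.e.f y) = a'.e.f (t y)) (y : Y.V) :
    totLin σ f (a.tot.f y) = a'.tot.f (t y) := by
  funext k
  rw [totLin_apply]
  match k with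
  | 0 => rw [a.tot_zero, a'.tot_zero, h, pow_zero, one_smul]
  | (k + 1) => rw [a.tot_succ, a'.tot_succ, map_zero, smul_zero]

/-- The map from the total to level zero followed by a map. -/
def fromZero {Y : GD} (r : Hom (X.X 0) Y) : Hom X.Tot Y where
  f := r.f.comp (LinearMap.proj 0)
  comm v := r.comm (v 0)
  deg m v hv := by
    have := hv 0
    exact r.deg m _ (by simpa using this)

/-- The shift by extra codegeneracies. -/
def shft (ε : ℕ → ℂ) (s : ∀ k, Hom (X.X (k + 1)) (X.X k)) : X.Tot.V →ₗ[ℂ] X.Tot.V :=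
  LinearMap.pi fun k => (ε k • (s k).f).comp (LinearMap.proj (k + 1))

theorem shft_apply (ε : ℕ → ℂ) (s : ∀ k, Hom (X.X (k + 1)) (X.X k)) (v : X.Tot.V) (k : ℕ) :
    (shft ε s v : ∀ k, (X.X k).V) k = ε k • (s k).f (v (k + 1)) := rfl

theorem shft_gr (ε : ℕ → ℂ) (s : ∀ k, Hom (X.X (k + 1)) (X.X k)) (m : ℤ) (v : X.Tot.V)
    (hv : v ∈ X.Tot.gr m) : shft ε s v ∈ X.Tot.gr (m - 1) := by
  intro k
  rw [shft_apply]
  refine Submodule.smul_mem _ _ ((s k).deg _ _ ?_)
  have := hv (k + 1)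
  rwa [show m - 1 - (k : ℤ) = m - ((k + 1 : ℕ) : ℤ) by push_cast; ring]

/-- The general contraction. -/
theorem qis_of_shft {Y : GD} (a : Aug X Y) (ε : ℕ → ℂ) (s : ∀ k, Hom (X.X (k + 1)) (X.X k))
    (r : Hom (X.X 0) Y) (hr : ∀ y, r.f (a.e.f y) = y)
    (h0 : ∀ x, ε 0 • (s 0).f (X.dl 0 x) = x - a.e.f (r.f x))
    (hk : ∀ k x, ε (k + 1) • (s (k + 1)).f (X.dl (k + 1) x) = x - X.dl k (ε k • (s k).f x)) :
    Qis a.tot := by
  refine Qis.of_htpy a.tot (fromZero r) 0 (fun m x _ => zero_mem _) (fun m x _ => ?_)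
    (shft ε s) (shft_gr ε s) (fun m v _ => ?_)
  · have : (fromZero r).f (a.tot.f x) = x := by
      change r.f ((a.tot.f x : ∀ k, (X.X k).V) 0) = x
      rw [a.tot_zero, hr]
    rw [this]
    simp
  · funext k
    match k with
    | 0 =>
      change (X.X 0).d (ε 0 • (s 0).f (v 1)) + ε 0 • (s 0).f ((-1 : ℂ) ^ (0 + 1) •
          (X.X (0 + 1)).d (v (0 + 1)) + X.dl 0 (v 0)) = v 0 - (a.tot.f (r.f (v 0)) : ∀ k, (X.X k).V) 0
      rw [a.tot_zero, map_add, smul_add, h0, map_smul, map_smul, (s 0).comm]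
      simp
    | (k + 1) =>
      change (-1 : ℂ) ^ (k + 1) • (X.X (k + 1)).d (ε (k + 1) • (s (k + 1)).f (v (k + 1 + 1))) +
          X.dl k (ε k • (s k).f (v (k + 1))) + ε (k + 1) • (s (k + 1)).f ((-1 : ℂ) ^ (k + 1 + 1) •
          (X.X (k + 1 + 1)).d (v (k + 1 + 1)) + X.dl (k + 1) (v (k + 1)))
        = v (k + 1) - (a.tot.f (r.f (v 0)) : ∀ k, (X.X k).V) (k + 1)
      rw [a.tot_succ, map_add, smul_add, hk, map_smul, map_smul, map_smul, (s (k + 1)).comm,
        smul_comm (ε (k + 1)), pow_succ (-1 : ℂ) (k + 1)]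
      simp only [mul_neg, mul_one, neg_smul, sub_zero]
      abel

/-- Contraction by extra codegeneracies on the last side. -/
theorem qis_of_last {Y : GD} (a : Aug X Y) (s : ∀ k, Hom (X.X (k + 1)) (X.X k))
    (r : Hom (X.X 0) Y) (hr : ∀ y, r.f (a.e.f y) = y)
    (h00 : ∀ x, (s 0).f ((X.fc 0 0).f x) = a.e.f (r.f x))
    (hlast : ∀ k x, (s k).f ((X.fc k (k + 1)).f x) = x)
    (hs : ∀ k, ∀ i ≤ k + 1, ∀ x, (s (k + 1)).f ((X.fc (k + 1) i).f x) = (X.fc k i).f ((s k).f x)) :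
    Qis a.tot := by
  refine qis_of_shft a (fun k => (-1 : ℂ) ^ (k + 1)) s r hr ?_ ?_
  · intro x
    rw [dl_apply, Finset.sum_range_succ, Finset.sum_range_succ, Finset.sum_range_zero]
    simp [h00, hlast 0]
    abel
  · intro k x
    rw [dl_apply, Finset.sum_range_succ, map_add, map_smul, hlast (k + 1), map_sum, smul_add,
      smul_smul, dl_apply, Finset.smul_sum]
    have h1 : (-1 : ℂ) ^ (k + 1 + 1) * (-1 : ℂ) ^ (k + 2) = 1 := by
      rw [show k + 1 + 1 = k + 2 by ring, ← mul_pow]; norm_num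
    rw [h1, one_smul, add_comm _ x, sub_eq_add_neg, ← Finset.sum_neg_distrib]
    congr 1
    refine Finset.sum_congr rfl fun i hi => ?_
    rw [Finset.mem_range] at hi
    rw [map_smul, hs k i (by omega), map_smul, pow_succ (-1 : ℂ) (k + 1)]
    simp only [mul_neg, mul_one, neg_smul]
    rw [smul_comm]

/-- Contraction by extra codegeneracies on the first side. -/
theorem qis_of_first {Y : GD} (a : Aug X Y) (s : ∀ k, Hom (X.X (k + 1)) (X.X k))
    (r : Hom (X.X 0) Y) (hr : ∀ y, r.f (a.e.f y) = y)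
    (h01 : ∀ x, (s 0).f ((X.fc 0 1).f x) = a.e.f (r.f x))
    (hfirst : ∀ k x, (s k).f ((X.fc k 0).f x) = x)
    (hs : ∀ k, ∀ i ≤ k + 1, ∀ x,
      (s (k + 1)).f ((X.fc (k + 1) (i + 1)).f x) = (X.fc k i).f ((s k).f x)) :
    Qis a.tot := by
  refine qis_of_shft a (fun _ => 1) s r hr ?_ ?_
  · intro x
    rw [dl_apply, Finset.sum_range_succ, Finset.sum_range_succ, Finset.sum_range_zero]
    simp [h01, hfirst 0]
    abel
  · intro k x
    rw [dl_apply, Finset.sum_range_succ', map_add, map_smul, hfirst (k + 1), map_sum, one_smul,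
      pow_zero, one_smul, one_smul, dl_apply, add_comm _ x, sub_eq_add_neg,
      ← Finset.sum_neg_distrib]
    congr 1
    refine Finset.sum_congr rfl fun i hi => ?_
    rw [Finset.mem_range] at hi
    rw [map_smul, hs k i (by omega), pow_succ]
    simp

end CS

end Vale.Agent.P286.H761
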