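import Vale.Agent.P286.H761.Cosi
import Mathlib.CategoryTheory.Comma.Over.Basic

/-!
# Contractions in an arbitrary category; the objects under `A`
-/

namespace Vale.Agent.P286.H761

open CategoryTheory Vale.Agent.P286.Gen Vale.Agent.P286.H295 Vale.Agent.P286.H847
  Vale.Agent.P286.H847.GD

noncomputable section

section General

variable {C : Type 1} [Category.{0} C]

/-- An augmentation of a semi-cosimplicial object with extra codegeneracies on the first side. -/
structure ConF (P : CO C) (A : C) where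
  e : A ⟶ P.P 0
  aug : e ≫ P.fc 0 0 = e ≫ P.fc 0 1
  r : P.P 0 ⟶ A
  s : ∀ k, P.P (k + 1) ⟶ P.P k
  e_r : e ≫ r = 𝟙 A
  one : P.fc 0 1 ≫ s 0 = r ≫ e
  first : ∀ k, P.fc k 0 ≫ s k = 𝟙 (P.P k)
  rest : ∀ k, ∀ i ≤ k + 1, P.fc (k + 1) (i + 1) ≫ s (k + 1) = s k ≫ P.fc k i

/-- An augmentation of a semi-cosimplicial object with extra codegeneracies on the last side. -/
structure ConL (P : CO C) (A : C) where
  e : A ⟶ P.P 0
  aug : e ≫ P.fc 0 0 = e ≫ P.fc 0 1
  r : P.P 0 ⟶ A
  s : ∀ k, P.P (k + 1) ⟶ P.P k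
  e_r : e ≫ r = 𝟙 A
  zero : P.fc 0 0 ≫ s 0 = r ≫ e
  last : ∀ k, P.fc k (k + 1) ≫ s k = 𝟙 (P.P k)
  rest : ∀ k, ∀ i ≤ k + 1, P.fc (k + 1) i ≫ s (k + 1) = s k ≫ P.fc k i

/-- The augmentation of the values. -/
def augOf (F : GF C) (P : CO C) {A : C} (e : A ⟶ P.P 0) (h : e ≫ P.fc 0 0 = e ≫ P.fc 0 1) :
    CS.Aug (F.cs P) (F.obj A) where
  e := F.map e
  eq y := F.map_eq h y

/-- **Contraction** on the first side. -/
theorem ConF.qis {P : CO C} {A : C} (c : ConF P A) (F : GF C) :
    Qis (augOf F P c.e c.aug).tot :=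
  CS.qis_of_first (augOf F P c.e c.aug) (fun k => F.map (c.s k)) (F.map c.r)
    (fun y => F.map_eq_id c.e_r y) (fun x => F.map_eq c.one x)
    (fun k x => F.map_eq_id (c.first k) x) (fun k i hi x => F.map_eq (c.rest k i hi) x)

/-- **Contraction** on the last side. -/
theorem ConL.qis {P : CO C} {A : C} (c : ConL P A) (F : GF C) :
    Qis (augOf F P c.e c.aug).tot :=
  CS.qis_of_last (augOf F P c.e c.aug) (fun k => F.map (c.s k)) (F.map c.r)
    (fun y => F.map_eq_id c.e_r y) (fun x => F.map_eq c.zero x)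
    (fun k x => F.map_eq_id (c.last k) x) (fun k i hi x => F.map_eq (c.rest k i hi) x)

/-- A semi-cosimplicial object under `A`. -/
def underCO {A : C} (P : CO C) (u : ∀ k, A ⟶ P.P k)
    (hu : ∀ k i, i ≤ k + 1 → u k ≫ P.fc k i = u (k + 1))
    : CO (Under A) where
  P k := Under.mk (u k)
  fc k i := if h : i ≤ k + 1 then Under.homMk (P.fc k i) (hu k i h) else
    Under.homMk (P.fc k 0) (hu k 0 (Nat.zero_le _))
  rel k i j hi hj := by
    ext
    have h1 : i ≤ k + 1 := hi.trans hj
    have h2 : j + 1 ≤ k + 1 + 1 := by omega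
    have h3 : i ≤ k + 1 + 1 := by omega
    simp only [h1, h2, h3, hj, dif_pos]
    exact P.rel k i j hi hj

theorem underCO_P {A : C} (P : CO C) (u : ∀ k, A ⟶ P.P k)
    (hu : ∀ k i, i ≤ k + 1 → u k ≫ P.fc k i = u (k + 1)) (k : ℕ) :
    (underCO P u hu).P k = Under.mk (u k) := rfl

theorem underCO_fc {A : C} (P : CO C) (u : ∀ k, A ⟶ P.P k)
    (hu : ∀ k i, i ≤ k + 1 → u k ≫ P.fc k i = u (k + 1)) (k i : ℕ) (h : i ≤ k + 1) :
    (underCO P u hu).fc k i = Under.homMk (P.fc k i) (hu k i h) := dif_pos h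

end General

section Cop

variable {N : ℕ} {Γ : Gps N} [hs : Algebra.Smooth ℂ (Of Γ)]

/-- The contraction data of the objects under `A`. -/
def undCon (A : Gen.BGObj Γ) : ConF (undS A).co A where
  e := inl A
  aug := inl_copM (inl A)
  r := foldU A
  s := sU A
  e_r := inl_foldU A
  one := by
    change (undS A).fc 0 (0 + 1) ≫ sU A 0 = _
    rw [Stt.fc_last]
    exact inl_copM _
  first := fc_sU A
  rest := fc_sU_succ A

/-- The structure arrows from `A`. -/
def uA (A : Gen.BGObj Γ) : ∀ k, A ⟶ (undS A).P k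
  | 0 => inl A
  | (k + 1) => uA A k ≫ inl ((undS A).P k)

theorem uA_fc (A : Gen.BGObj Γ) : ∀ k i, i ≤ k + 1 →
    uA A k ≫ (undS A).fc k i = uA A (k + 1) := by
  intro k
  induction k with
  | zero =>
    intro i hi
    obtain rfl | rfl : i = 0 + 1 ∨ i = 0 := by omega
    · rw [Stt.fc_last]
      rfl
    · exact inl_copM (inl A)
  | succ k ih =>
    intro i hi
    rcases Nat.lt_or_ge i (k + 2) with h | h
    · rw [Stt.fc_succ _ k i (by omega)]
      change (uA A k ≫ inl ((undS A).P k)) ≫ copM ((undS A).fc k i) = _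
      rw [Category.assoc, inl_copM, ← Category.assoc, ih i (by omega)]
      rfl
    · obtain rfl : i = k + 1 + 1 := by omega
      rw [Stt.fc_last]
      rfl

theorem uA_sU (A : Gen.BGObj Γ) (k : ℕ) : uA A (k + 1) ≫ sU A k = uA A k := by
  induction k with
  | zero =>
    change (inl A ≫ inl (cop A)) ≫ copM (foldU A) = inl A
    rw [Category.assoc, inl_copM, ← Category.assoc, inl_foldU, Category.id_comp]
  | succ k ih =>
    have h1 : inl ((undS A).P (k + 1)) ≫ copM (sU A k) = sU A k ≫ inl ((undS A).P k) :=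
      inl_copM _
    have h2 : (uA A (k + 1) ≫ inl ((undS A).P (k + 1))) ≫ copM (sU A k)
        = uA A k ≫ inl ((undS A).P k) := by
      rw [Category.assoc, h1, ← Category.assoc, ih]
    exact h2

theorem uA_foldU (A : Gen.BGObj Γ) : uA A 0 ≫ foldU A = 𝟙 A := inl_foldU A

/-- The structure arrows are natural in `A`. -/
theorem uA_undM {A B : Gen.BGObj Γ} (φ : A ⟶ B) (k : ℕ) :
    uA A k ≫ (undM φ).P k = φ ≫ uA B k := by
  induction k with
  | zero => exact inl_copM φ
  | succ k ih =>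
    change (uA A k ≫ inl ((undS A).P k)) ≫ copM ((undM φ).P k) = φ ≫ uA B k ≫ inl ((undS B).P k)
    rw [Category.assoc, inl_copM, ← Category.assoc, ih, Category.assoc]

/-- The semi-cosimplicial object under `A`. -/
def undCO (A : Gen.BGObj Γ) : CO (Under A) := underCO (undS A).co (uA A) (uA_fc A)

theorem undCO_P (A : Gen.BGObj Γ) (k : ℕ) : (undCO A).P k = Under.mk (uA A k) := rfl

theorem undCO_fc (A : Gen.BGObj Γ) (k i : ℕ) (h : i ≤ k + 1) :
    (undCO A).fc k i = Under.homMk ((undS A).fc k i) (uA_fc A k i h) := dif_pos h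

/-- The contraction data under `A`. -/
def undConU (A : Gen.BGObj Γ) : ConF (undCO A) (Under.mk (𝟙 A)) where
  e := Under.homMk (inl A) (Category.id_comp _)
  aug := by
    rw [undCO_fc A 0 0 (by omega), undCO_fc A 0 1 (by omega)]
    ext
    exact inl_copM (inl A)
  r := Under.homMk (foldU A) (inl_foldU A)
  s k := Under.homMk (sU A k) (uA_sU A k)
  e_r := by
    ext
    exact inl_foldU A
  one := by
    rw [undCO_fc A 0 1 (by omega)]
    ext
    exact (undCon A).one
  first k := by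
    rw [undCO_fc A k 0 (by omega)]
    ext
    exact fc_sU A k
  rest k i hi := by
    rw [undCO_fc A (k + 1) (i + 1) (by omega), undCO_fc A k i hi]
    ext
    exact fc_sU_succ A k i hi

/-- The contraction data of the coproducts of the powers of the point with the point. -/
def conCO (Γ : Gps N) [Algebra.Smooth ℂ (Of Γ)] : CO (Gen.BGObj Γ) where
  P k := cop ((ptS Γ).P k)
  fc k i := copM ((ptS Γ).fc k i)
  rel k i j hi hj := by
    rw [← copM_comp, ← copM_comp]
    exact congrArg copM ((ptS Γ).rel k i j hi hj)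

/-- The contraction data. -/
def conCon (Γ : Gps N) [Algebra.Smooth ℂ (Of Γ)] : ConL (conCO Γ) (BPt Γ) where
  e := inr (BPt Γ)
  aug := by
    change inr (BPt Γ) ≫ copM (inr (BPt Γ)) = inr (BPt Γ) ≫ copM (inl (BPt Γ))
    rw [inr_copM, inr_copM]
  r := foldPt Γ
  s k := fold2 ((ptS Γ).P k)
  e_r := inr_foldPt
  zero := foldPt_inr
  last k := by
    change copM ((ptS Γ).fc k (k + 1)) ≫ _ = _
    rw [Stt.fc_last]
    exact copM_inl_fold2 _
  rest k i hi := by
    change copM ((ptS Γ).fc (k + 1) i) ≫ _ = _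
    rw [Stt.fc_succ _ k i hi]
    exact fold2_nat _

end Cop

end

end Vale.Agent.P286.H761
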