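import Vale.Agent.P286.H761.Xi0
import Vale.Agent.P286.H64.LM
import Vale.Agent.P286.H697.OmF

/-!
# The functor `Xi`

`GauX Γ W n` is the interface to the gauge functor: for every family `F` of differential graded
modules over the forms, the functor `X ↦ W ⊗ F(X)`.  `Xi F` is the product total of its values on
the powers of the point, with the operators `e_i`.
-/

namespace Vale.Agent.P286.H761

open CategoryTheory TensorProduct Vale.Agent.P286.Gen Vale.Agent.P286.H295 Vale.Agent.P286.H847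
  Vale.Agent.P286.H847.GD Vale.Agent.P286.H847.SGD Vale.Agent.P286.H64 Vale.Agent.P286.H697

noncomputable section

/-- The degrees of the odd generators. -/
def dgx (n : ℕ) (i : Fin n) : ℤ := 4 * (i : ℤ) + 3

theorem dgx_odd (n : ℕ) (i : Fin n) : Odd (dgx n i) := ⟨2 * (i : ℤ) + 1, by rw [dgx]; ring⟩

section Abstract

variable {C : Type 1} [Category.{0} C] {n : ℕ}

/-- The total of a functor with anticommuting operators. -/
def xiLM {F : GF C} (E : EOp F n (dgx n)) (P : CO C) : LM n where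
  toGD := (F.cs P).Tot
  e := E.tot P
  e_e i j x := E.tot_ee P i j x
  e_d i x := E.tot_ed P i x
  e_gr i m x hx := E.tot_gr P i m x hx

/-- A cochain which commutes with the operators up to sign. -/
@[ext]
structure ECoch {F G : GF C} {dg : Fin n → ℤ} (E : EOp F n dg) (E' : EOp G n dg) (p : ℤ)
    extends GCoch F G p where
  e : ∀ i X x, f X ((E.e i).f X x) = (p.negOnePow : ℤ) • (E'.e i).f X (f X x)

/-- The total of a cochain. -/
def ECoch.xi {F G : GF C} {E : EOp F n (dgx n)} {E' : EOp G n (dgx n)} {p : ℤ}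
    (a : ECoch E E' p) (P : CO C) : LM.Coch (xiLM E P) (xiLM E' P) p where
  f := a.toGCoch.tot P
  deg m x hx := a.toGCoch.tot_gr P m x hx
  e i x := (E.tot_coch E' a.toGCoch i (fun X x => by rw [a.e, sz_smul]) P x).trans (sz_smul p _)

end Abstract

/-- The power `p` of the sign operator. -/
def sgp (W : SGD) (p : ℤ) : W.V →ₗ[ℂ] W.V := if Even p then LinearMap.id else W.sg

theorem sgp_even {W : SGD} {p : ℤ} (h : Even p) (x : W.V) : sgp W p x = x := by
  rw [sgp, if_pos h]; rfl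

theorem sgp_odd {W : SGD} {p : ℤ} (h : ¬ Even p) (x : W.V) : sgp W p x = W.sg x := by
  rw [sgp, if_neg h]

@[simp] theorem sgp_zero {W : SGD} (x : W.V) : sgp W 0 x = x := sgp_even (by simp) x

theorem sgp_sgp {W : SGD} (p q : ℤ) (x : W.V) : sgp W p (sgp W q x) = sgp W (p + q) x := by
  by_cases h1 : Even p <;> by_cases h2 : Even q
  · rw [sgp_even h1, sgp_even h2, sgp_even (h1.add h2)]
  · rw [sgp_even h1, sgp_odd h2, sgp_odd (fun h => h2 ((Int.even_add.1 h).1 h1))]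
  · rw [sgp_odd h1, sgp_even h2, sgp_odd (fun h => h1 ((Int.even_add.1 h).2 h2))]
  · rw [sgp_odd h1, sgp_odd h2, W.sg_sg, sgp_even]
    exact Int.even_add.2 ⟨fun h => absurd h h1, fun h => absurd h h2⟩

theorem sgp_mem {W : SGD} (p : ℤ) {m : ℤ} {x : W.V} (h : x ∈ W.gr m) : sgp W p x ∈ W.gr m := by
  by_cases hp : Even p
  · rwa [sgp_even hp]
  · rw [sgp_odd hp]; exact W.sg_mem h

theorem sg_sgp {W : SGD} (p : ℤ) (x : W.V) : W.sg (sgp W p x) = sgp W (p + 1) x := by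
  rw [add_comm, ← sgp_sgp, sgp_odd (p := 1) (by decide)]

theorem sgp_sg {W : SGD} (p : ℤ) (x : W.V) : sgp W p (W.sg x) = sgp W (p + 1) x := by
  rw [← sgp_sgp, sgp_odd (p := 1) (by decide)]

/-- The sign powers and an operator which anticommutes with the sign operator. -/
theorem sgp_anti {W : SGD} {f : W.V →ₗ[ℂ] W.V} (h : ∀ x, W.sg (f x) = - f (W.sg x)) (p : ℤ)
    (x : W.V) : sgp W p (f x) = (p.negOnePow : ℤ) • f (sgp W p x) := by
  by_cases hp : Even p
  · rw [sgp_even hp, sgp_even hp, Int.negOnePow_even p hp]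
    simp
  · rw [sgp_odd hp, sgp_odd hp, h, Int.negOnePow_odd p (Int.not_even_iff_odd.1 hp)]
    simp

/-- The operator `sg^p ⊗ f`. -/
def tco (W : SGD) (p : ℤ) {F G : GD} (f : F.V →ₗ[ℂ] G.V) : W.V ⊗[ℂ] F.V →ₗ[ℂ] W.V ⊗[ℂ] G.V :=
  TensorProduct.map (sgp W p) f

theorem tco_tmul (W : SGD) (p : ℤ) {F G : GD} (f : F.V →ₗ[ℂ] G.V) (w : W.V) (x : F.V) :
    tco W p f (w ⊗ₜ[ℂ] x) = sgp W p w ⊗ₜ[ℂ] f x := rfl

theorem tco_gr (W : SGD) (p : ℤ) {F G : GD} {f : F.V →ₗ[ℂ] G.V}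
    (hf : ∀ m, ∀ x ∈ F.gr m, f x ∈ G.gr (m + p)) (m : ℤ) (z : W.V ⊗[ℂ] F.V)
    (hz : z ∈ tgr W.toGD F m) : tco W p f z ∈ tgr W.toGD G (m + p) := by
  refine map_tgr (T := tco W p f) ?_ hz
  intro i j x y hij hx hy
  rw [tco_tmul]
  exact tmul_mem (by rw [← hij]; ring) (sgp_mem p hx) (hf j y hy)

theorem tco_one (W : SGD) {F : GD} (z : W.V ⊗[ℂ] F.V) :
    tco W 0 (LinearMap.id : F.V →ₗ[ℂ] F.V) z = z := by
  induction z using TensorProduct.induction_on with
  | zero => simp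
  | tmul w x => rw [tco_tmul, sgp_zero]; rfl
  | add a b ha hb => rw [map_add, ha, hb]

theorem tco_cmp (W : SGD) {p q r : ℤ} (h : p + q = r) {F G H : GD} (f : F.V →ₗ[ℂ] G.V)
    (g : G.V →ₗ[ℂ] H.V) (z : W.V ⊗[ℂ] F.V) :
    tco W r (g.comp f) z = tco W q g (tco W p f z) := by
  induction z using TensorProduct.induction_on with
  | zero => simp
  | tmul w x => rw [tco_tmul, tco_tmul, tco_tmul, sgp_sgp, add_comm q p, h]; rfl
  | add a b ha hb => rw [map_add, ha, hb, map_add, map_add]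

/-- The differential of `sg^p ⊗ f`. -/
theorem tco_dl (W : SGD) {p r : ℤ} (h : p + 1 = r) {F G : GD} (f : F.V →ₗ[ℂ] G.V)
    (z : W.V ⊗[ℂ] F.V) :
    tco W r (G.d.comp f - (p.negOnePow : ℤ) • f.comp F.d) z =
      td W G (tco W p f z) - (p.negOnePow : ℤ) • tco W p f (td W F z) := by
  subst h
  induction z using TensorProduct.induction_on with
  | zero => simp
  | tmul w x =>
    have e1 : W.d (sgp W p w) = (p.negOnePow : ℤ) • sgp W p (W.d w) := by
      have h1 := sgp_anti (W := W) (f := W.d) W.sg_d p w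
      have h2 : ((p.negOnePow : ℤ) * (p.negOnePow : ℤ)) = 1 := by
        rcases Int.even_or_odd p with h | h
        · rw [Int.negOnePow_even p h]; simp
        · rw [Int.negOnePow_odd p h]; simp
      rw [h1, smul_smul, h2, one_smul]
    rw [tco_tmul, tco_tmul, td_tmul, td_tmul, map_add, tco_tmul, tco_tmul, sgp_sg, sg_sgp, e1,
      LinearMap.sub_apply, LinearMap.smul_apply, tmul_sub, LinearMap.comp_apply,
      LinearMap.comp_apply, smul_add, smul_tmul', tmul_smul]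
    abel
  | add a b ha hb => rw [map_add, ha, hb, map_add, map_add, map_add, map_add, smul_add]; abel

theorem tco_dl' (W : SGD) {p r : ℤ} (h : p + 1 = r) {F G : GD} (f : F.V →ₗ[ℂ] G.V)
    (z : W.V ⊗[ℂ] F.V) :
    tco W r (G.d.comp f - (p.negOnePow : ℤ) • f.comp F.d) z =
      ((td W G).comp (tco W p f) - sz p • (tco W p f).comp (td W F)) z := by
  rw [tco_dl W h f z, LinearMap.sub_apply, LinearMap.smul_apply, LinearMap.comp_apply,
    LinearMap.comp_apply, sz_smul]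

theorem tco_add (W : SGD) (p : ℤ) {F G : GD} (f g : F.V →ₗ[ℂ] G.V) (z : W.V ⊗[ℂ] F.V) :
    tco W p (f + g) z = tco W p f z + tco W p g z := by
  rw [tco, tco, tco, TensorProduct.map_add_right]
  rfl

theorem tco_smul (W : SGD) (p : ℤ) {F G : GD} (t : ℂ) (f : F.V →ₗ[ℂ] G.V) (z : W.V ⊗[ℂ] F.V) :
    tco W p (t • f) z = t • tco W p f z := by
  rw [tco, tco, TensorProduct.map_smul_right]
  rfl

theorem tco_smul' (W : SGD) (p : ℤ) {F G : GD} (c t : ℂ) (f : F.V →ₗ[ℂ] G.V)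
    (z : W.V ⊗[ℂ] F.V) : c • tco W p (t • f) z = t • c • tco W p f z := by
  rw [tco_smul, smul_comm]

/-- An operator on the left factor. -/
def lop (W : SGD) (F : GD) (f : W.V →ₗ[ℂ] W.V) : W.V ⊗[ℂ] F.V →ₗ[ℂ] W.V ⊗[ℂ] F.V :=
  TensorProduct.map f LinearMap.id

theorem lop_tmul (W : SGD) (F : GD) (f : W.V →ₗ[ℂ] W.V) (w : W.V) (x : F.V) :
    lop W F f (w ⊗ₜ[ℂ] x) = f w ⊗ₜ[ℂ] x := rfl

/-- The projection to the right factor defined by a functional of degree zero. -/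
def epT (W : SGD) (ε : W.V →ₗ[ℂ] ℂ) (hd : ∀ x, ε (W.d x) = 0) (hs : ∀ x, ε (W.sg x) = ε x)
    (hg : ∀ m, m ≠ 0 → ∀ x ∈ W.gr m, ε x = 0) (F : GD) : Hom (tens W F) F where
  f := (TensorProduct.lid ℂ F.V).toLinearMap.comp (TensorProduct.map ε LinearMap.id)
  comm z := by
    change W.V ⊗[ℂ] F.V at z
    change ((TensorProduct.lid ℂ F.V).toLinearMap.comp (TensorProduct.map ε LinearMap.id))
      (td W F z) = F.d (((TensorProduct.lid ℂ F.V).toLinearMap.comp
        (TensorProduct.map ε LinearMap.id)) z)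
    induction z using TensorProduct.induction_on with
    | zero => simp
    | tmul w x => simp [td_tmul, hd, hs]
    | add a b ha hb => rw [map_add, map_add, ha, hb, map_add, map_add]
  deg m z hz := by
    have h : tgr W.toGD F m ≤ (F.gr m).comap ((TensorProduct.lid ℂ F.V).toLinearMap.comp
        (TensorProduct.map ε LinearMap.id)) := by
      refine tgr_le fun i j x y hij hx hy => ?_
      change ε x • y ∈ F.gr m
      by_cases hi : i = 0
      · subst hi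
        rw [zero_add] at hij
        subst hij
        exact Submodule.smul_mem _ _ hy
      · rw [hg i hi x hx, zero_smul]
        exact zero_mem _
    exact h hz

theorem epT_tmul (W : SGD) (ε : W.V →ₗ[ℂ] ℂ) (hd : ∀ x, ε (W.d x) = 0)
    (hs : ∀ x, ε (W.sg x) = ε x) (hg : ∀ m, m ≠ 0 → ∀ x ∈ W.gr m, ε x = 0) (F : GD) (w : W.V)
    (x : F.V) : (epT W ε hd hs hg F).f (w ⊗ₜ[ℂ] x) = ε w • x := rfl

theorem epT_tco (W : SGD) (ε : W.V →ₗ[ℂ] ℂ) (hd : ∀ x, ε (W.d x) = 0)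
    (hs : ∀ x, ε (W.sg x) = ε x) (hg : ∀ m, m ≠ 0 → ∀ x ∈ W.gr m, ε x = 0) {F G : GD} (p : ℤ)
    (f : F.V →ₗ[ℂ] G.V) (z : W.V ⊗[ℂ] F.V) :
    (epT W ε hd hs hg G).f (tco W p f z) = f ((epT W ε hd hs hg F).f z) := by
  induction z using TensorProduct.induction_on with
  | zero => simp
  | tmul w x =>
    have e : ε (sgp W p w) = ε w := by
      by_cases hp : Even p
      · rw [sgp_even hp]
      · rw [sgp_odd hp, hs]
    rw [tco_tmul, epT_tmul, epT_tmul, e, map_smul]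
  | add a b ha hb => rw [map_add, map_add, ha, hb, map_add, map_add]

variable {N : ℕ} {Γ : Gps N} [hs : Algebra.Smooth ℂ (Of Γ)]

/-- The gauge functor and its properties: the interface between the gauge action and the
totals. -/
structure GauX (Γ : Gps N) (W : SGD) (n : ℕ) : Type 1 where
  e : Fin n → W.V →ₗ[ℂ] W.V
  e_e : ∀ i j x, e i (e j x) = - e j (e i x)
  e_d : ∀ i x, e i (W.d x) = - W.d (e i x)
  e_sg : ∀ i x, W.sg (e i x) = - e i (W.sg x)
  e_gr : ∀ i m, ∀ x ∈ W.gr m, e i x ∈ W.gr (m - dgx n i)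
  map : ∀ (F : OmF (BGT Γ)) {X Y : Gen.BGObj Γ}, (X ⟶ Y) →
    Hom (tens W (F.F X).M) (tens W (F.F Y).M)
  map_id : ∀ (F : OmF (BGT Γ)) (X : Gen.BGObj Γ) (z : W.V ⊗[ℂ] (F.F X).M.V),
    (map F (𝟙 X)).f z = z
  map_comp : ∀ (F : OmF (BGT Γ)) {X Y Z : Gen.BGObj Γ} (φ : X ⟶ Y) (ψ : Y ⟶ Z)
    (z : W.V ⊗[ℂ] (F.F X).M.V), (map F (φ ≫ ψ)).f z = (map F ψ).f ((map F φ).f z)
  map_e : ∀ (F : OmF (BGT Γ)) {X Y : Gen.BGObj Γ} (φ : X ⟶ Y) (i : Fin n)
    (z : W.V ⊗[ℂ] (F.F X).M.V),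
    lop W (F.F Y).M (e i) ((map F φ).f z) = (map F φ).f (lop W (F.F X).M (e i) z)
  map_co : ∀ {F G : OmF (BGT Γ)} {p : ℤ} (c : OmF.Coch F G p) {X Y : Gen.BGObj Γ} (φ : X ⟶ Y)
    (z : W.V ⊗[ℂ] (F.F X).M.V),
    tco W p (c.f Y) ((map F φ).f z) = (map G φ).f (tco W p (c.f X) z)
  eps : W.V →ₗ[ℂ] ℂ
  eps_d : ∀ x, eps (W.d x) = 0
  eps_sg : ∀ x, eps (W.sg x) = eps x
  eps_gr : ∀ m, m ≠ 0 → ∀ x ∈ W.gr m, eps x = 0

namespace GauX

variable {W : SGD} {n : ℕ} (G : GauX Γ W n)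

/-- The functor `X ↦ W ⊗ F(X)`. -/
abbrev wk (F : OmF (BGT Γ)) : GF (Gen.BGObj Γ) where
  obj X := tens W (F.F X).M
  map φ := G.map F φ
  map_id X z := G.map_id F X z
  map_comp φ ψ z := G.map_comp F φ ψ z

/-- The operators `e_i`. -/
def E (F : OmF (BGT Γ)) : EOp (G.wk F) n (dgx n) where
  e i :=
    { f := fun X => lop W (F.F X).M (G.e i)
      nat := fun φ z => G.map_e F φ i z
      deg := fun X m z hz => by
        refine map_tgr (T := lop W (F.F X).M (G.e i)) ?_ hz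
        intro a b x y hab hx hy
        rw [lop_tmul]
        exact tmul_mem (by rw [← hab]; ring) (G.e_gr i a x hx) hy }
  odd i := dgx_odd n i
  ee i j X z := by
    change W.V ⊗[ℂ] (F.F X).M.V at z
    change lop W (F.F X).M (G.e i) (lop W (F.F X).M (G.e j) z) =
      - lop W (F.F X).M (G.e j) (lop W (F.F X).M (G.e i) z)
    induction z using TensorProduct.induction_on with
    | zero => simp
    | tmul w x => rw [lop_tmul, lop_tmul, lop_tmul, lop_tmul, G.e_e, neg_tmul]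
    | add a b ha hb => rw [map_add, map_add, ha, hb, map_add, map_add, neg_add]
  ed i X z := by
    change W.V ⊗[ℂ] (F.F X).M.V at z
    change lop W (F.F X).M (G.e i) (td W (F.F X).M z) = - td W (F.F X).M (lop W (F.F X).M (G.e i) z)
    induction z using TensorProduct.induction_on with
    | zero => simp
    | tmul w x =>
      rw [td_tmul, map_add, lop_tmul, lop_tmul, lop_tmul, td_tmul, G.e_d, G.e_sg, neg_tmul,
        neg_tmul]
      abel
    | add a b ha hb => rw [map_add, map_add, ha, hb, map_add, map_add, neg_add]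

omit hs in
theorem E_f (F : OmF (BGT Γ)) (i : Fin n) (X : Gen.BGObj Γ) :
    ((G.E F).e i).f X = lop W (F.F X).M (G.e i) := rfl

/-- The cochain `sg^p ⊗ c`. -/
def co {F F' : OmF (BGT Γ)} {p : ℤ} (c : OmF.Coch F F' p) : ECoch (G.E F) (G.E F') p where
  f X := tco W p (c.f X)
  nat φ z := G.map_co c φ z
  deg X m z hz := tco_gr W p (c.deg X) m z hz
  e i X z := by
    change W.V ⊗[ℂ] (F.F X).M.V at z
    rw [E_f, E_f]
    induction z using TensorProduct.induction_on with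
    | zero => simp
    | tmul w x =>
      rw [lop_tmul, tco_tmul, tco_tmul, lop_tmul, sgp_anti (G.e_sg i), smul_tmul']
    | add a b ha hb => rw [map_add, map_add, ha, hb, map_add, map_add, smul_add]

omit hs in
theorem co_f {F F' : OmF (BGT Γ)} {p : ℤ} (c : OmF.Coch F F' p) (X : Gen.BGObj Γ) :
    (G.co c).f X = tco W p (c.f X) := rfl

/-- **The object `Xi F`.** -/
def Xi (F : OmF (BGT Γ)) : LM n := xiLM (G.E F) (ptS Γ).co

/-- **`Xi` on cochains.** -/
def xi {F F' : OmF (BGT Γ)} {p : ℤ} (c : OmF.Coch F F' p) : LM.Coch (G.Xi F) (G.Xi F') p :=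
  (G.co c).xi (ptS Γ).co

theorem xi_apply {F F' : OmF (BGT Γ)} {p : ℤ} (c : OmF.Coch F F' p) (v : (G.Xi F).V) (k : ℕ) :
    ((G.xi c).f v : ∀ k, W.V ⊗[ℂ] (F'.F ((ptS Γ).P k)).M.V) k
      = sz p ^ k • tco W p (c.f ((ptS Γ).P k)) (v k) := rfl

theorem Xi_e_apply (F : OmF (BGT Γ)) (i : Fin n) (v : (G.Xi F).V) (k : ℕ) :
    ((G.Xi F).e i v : ∀ k, W.V ⊗[ℂ] (F.F ((ptS Γ).P k)).M.V) k
      = (-1 : ℂ) ^ k • lop W (F.F ((ptS Γ).P k)).M (G.e i) (v k) :=
  (G.E F).tot_apply (ptS Γ).co i v k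

theorem xi_one (F : OmF (BGT Γ)) (v : (G.Xi F).V) : (G.xi (OmF.Coch.one F)).f v = v := by
  funext k
  rw [xi_apply, sz_zero, one_pow, one_smul]
  exact tco_one W (v k)

theorem xi_cmp {F F' F'' : OmF (BGT Γ)} {p q r : ℤ} (c : OmF.Coch F F' p)
    (c' : OmF.Coch F' F'' q) (h : p + q = r) (v : (G.Xi F).V) :
    (G.xi (c.cmp c' h)).f v = (G.xi c').f ((G.xi c).f v) := by
  funext k
  rw [xi_apply, xi_apply, xi_apply, map_smul, smul_smul, ← mul_pow, mul_comm (sz q), ← sz_add]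
  have e1 : tco W r ((c.cmp c' h).f ((ptS Γ).P k)) (v k) =
      tco W q (c'.f ((ptS Γ).P k)) (tco W p (c.f ((ptS Γ).P k)) (v k)) :=
    tco_cmp W h (c.f ((ptS Γ).P k)) (c'.f ((ptS Γ).P k)) (v k)
  rw [e1, h]

theorem xi_add {F F' : OmF (BGT Γ)} {p : ℤ} (c c' : OmF.Coch F F' p) (v : (G.Xi F).V) :
    (G.xi (c + c')).f v = (G.xi c).f v + (G.xi c').f v := by
  funext k
  exact (congrArg (sz p ^ k • ·) (tco_add W p (c.f ((ptS Γ).P k)) (c'.f ((ptS Γ).P k))
    (v k))).trans (smul_add _ _ _)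

theorem xi_smul {F F' : OmF (BGT Γ)} {p : ℤ} (t : ℂ) (c : OmF.Coch F F' p) (v : (G.Xi F).V) :
    (G.xi (t • c)).f v = t • (G.xi c).f v := by
  funext k
  exact tco_smul' W p (sz p ^ k) t (c.f ((ptS Γ).P k)) (v k)

/-- **`Xi` and the differential of cochains.** -/
theorem xi_dl {F F' : OmF (BGT Γ)} {p r : ℤ} (c : OmF.Coch F F' p) (h : p + 1 = r)
    (v : (G.Xi F).V) :
    (G.xi (c.dl h)).f v =
      (G.Xi F').d ((G.xi c).f v) - (p.negOnePow : ℤ) • (G.xi c).f ((G.Xi F).d v) := by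
  have h1 := (G.co c).toGCoch.tot_dl h (ptS Γ).co v
  rw [sz_smul] at h1
  refine Eq.trans ?_ h1
  funext k
  exact congrArg (sz r ^ k • ·) (tco_dl' W h (c.f ((ptS Γ).P k)) (v k))

/-- The projection `ε ⊗ 1`. -/
def ep (F : GD) : Hom (tens W F) F := epT W G.eps G.eps_d G.eps_sg G.eps_gr F

omit hs in
theorem ep_tmul (F : GD) (w : W.V) (x : F.V) : (G.ep F).f (w ⊗ₜ[ℂ] x) = G.eps w • x := rfl

/-- **The map `pi : Xi F → F(pt)`.** -/
def pi (F : OmF (BGT Γ)) : Hom (G.Xi F).toGD (F.F (BPt Γ)).M :=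
  CS.fromZero (X := (G.wk F).cs (ptS Γ).co) (Y := (F.F (BPt Γ)).M) (G.ep (F.F (BPt Γ)).M)

theorem pi_apply (F : OmF (BGT Γ)) (v : (G.Xi F).V) :
    (G.pi F).f v = (G.ep (F.F (BPt Γ)).M).f (v 0) := rfl

/-- `pi` is natural for cochains of any degree. -/
theorem pi_xi {F F' : OmF (BGT Γ)} {p : ℤ} (c : OmF.Coch F F' p) (v : (G.Xi F).V) :
    (G.pi F').f ((G.xi c).f v) = c.f (BPt Γ) ((G.pi F).f v) := by
  have h1 : (G.pi F').f ((G.xi c).f v) = (G.ep (F'.F (BPt Γ)).M).f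
      (sz p ^ 0 • tco W p (c.f (BPt Γ)) (v 0)) := rfl
  rw [h1, pow_zero, one_smul]
  exact epT_tco W G.eps G.eps_d G.eps_sg G.eps_gr p (c.f (BPt Γ)) (v 0)

/-- A closed cochain of degree zero which is a quasi-isomorphism at the point induces a
quasi-isomorphism, if the maps `pi` are quasi-isomorphisms. -/
theorem qis_xi {F F' : OmF (BGT Γ)} (c : OmF.Coch F F' 0) (hF : Qis (G.pi F))
    (hF' : Qis (G.pi F')) (u : Hom (G.Xi F).toGD (G.Xi F').toGD)
    (hu : ∀ v, u.f v = (G.xi c).f v) (u0 : Hom (F.F (BPt Γ)).M (F'.F (BPt Γ)).M)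
    (hu0 : ∀ x, u0.f x = c.f (BPt Γ) x) (h0 : Qis u0) : Qis u := by
  refine Qis.of_comp_left (v := G.pi F') hF' ?_
  have h1 : Qis (u0.comp (G.pi F)) := Qis.comp h0 hF
  intro m
  have e : ∀ v, ((G.pi F').comp u).f v = (u0.comp (G.pi F)).f v := by
    intro v
    change (G.pi F').f (u.f v) = u0.f ((G.pi F).f v)
    rw [hu, hu0]
    exact G.pi_xi c v
  have h2 := h1 m
  refine ⟨?_, ?_⟩
  · intro x hx hd hy
    refine h2.1 x hx hd ?_
    obtain ⟨y, hy, hy'⟩ := hy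
    exact ⟨y, hy, by rw [hy']; exact e x⟩
  · intro y hy hd
    obtain ⟨x, hx, hdx, y', hy', e'⟩ := h2.2 y hy hd
    exact ⟨x, hx, hdx, y', hy', by rw [e']; exact congrArg (y - ·) (e x).symm⟩

end GauX

end

end Vale.Agent.P286.H761
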