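import Vale.Agent.P286.H847.GD

/-!
# Property (P) and the kernel of a null-homotopic operator

An endomorphism `C` of a vector space has property (P) if every vector is killed by some
`C q(C)`, `q` a polynomial with `q(0) ≠ 0`.  Then the space is the direct sum of the kernel and of
the image of `C`.  If `C = d h + h d` on a complex, then the inclusion of the kernel of `C` is a
quasi-isomorphism.
-/

namespace Vale.Agent.P286.H761

open Polynomial

section Basic

variable {k : Type*} [Field k] {M N : Type*} [AddCommGroup M] [Module k M] [AddCommGroup N]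
  [Module k N]

/-- Intertwining maps commute with polynomials in the operators. -/
theorem map_aeval {C : M →ₗ[k] M} {C' : N →ₗ[k] N} (f : M →ₗ[k] N)
    (h : ∀ m, f (C m) = C' (f m)) (q : k[X]) (m : M) :
    f (aeval C q m) = aeval C' q (f m) := by
  induction q using Polynomial.induction_on' generalizing m with
  | add p q hp hq => simp [hp, hq]
  | monomial n a =>
    have key : ∀ n : ℕ, ∀ m, f ((C ^ n) m) = (C' ^ n) (f m) := by
      intro n
      induction n with
      | zero => intro m; simp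
      | succ n ih => intro m; rw [pow_succ, pow_succ, Module.End.mul_apply, ih, h]; rfl
    simp [aeval_monomial, key]

/-- The vectors which are killed by some `C q(C)`, `q(0) ≠ 0`. -/
def Psub (C : M →ₗ[k] M) : Submodule k M where
  carrier := {m | ∃ q : k[X], q.eval 0 ≠ 0 ∧ C (aeval C q m) = 0}
  zero_mem' := ⟨1, by simp, by simp⟩
  add_mem' := by
    rintro a b ⟨q, hq, ha⟩ ⟨r, hr, hb⟩
    refine ⟨q * r, by simp [hq, hr], ?_⟩
    have e : ∀ x : M, ∀ p : k[X], C (aeval C p x) = aeval C p (C x) := fun x p =>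
      map_aeval C (fun _ => rfl) p x
    rw [map_add, map_add]
    have h1 : C (aeval C (q * r) a) = 0 := by
      rw [mul_comm, map_mul, Module.End.mul_apply, e, ha, map_zero]
    have h2 : C (aeval C (q * r) b) = 0 := by
      rw [map_mul, Module.End.mul_apply, e, hb, map_zero]
    rw [h1, h2, add_zero]
  smul_mem' := by
    rintro c a ⟨q, hq, ha⟩
    exact ⟨q, hq, by rw [map_smul, map_smul, ha, smul_zero]⟩

/-- Property (P). -/
def IsP (C : M →ₗ[k] M) : Prop :=
  ∀ m, ∃ q : k[X], q.eval 0 ≠ 0 ∧ C (aeval C q m) = 0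

theorem isP_iff {C : M →ₗ[k] M} : IsP C ↔ Psub C = ⊤ := by
  rw [eq_top_iff]
  exact ⟨fun h m _ => h m, fun h m => h (x := m) trivial⟩

theorem map_Psub {C : M →ₗ[k] M} {C' : N →ₗ[k] N} (f : M →ₗ[k] N)
    (h : ∀ m, f (C m) = C' (f m)) {m : M} (hm : m ∈ Psub C) : f m ∈ Psub C' := by
  obtain ⟨q, hq, e⟩ := hm
  exact ⟨q, hq, by rw [← map_aeval f h, ← h, e, map_zero]⟩

/-- Property (P) passes to a space which is spanned by the images of intertwining maps. -/
theorem IsP.of_span {ι : Type*} {L : ι → Type*} [∀ i, AddCommGroup (L i)] [∀ i, Module k (L i)]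
    {C : ∀ i, L i →ₗ[k] L i} {C' : N →ₗ[k] N} (hC : ∀ i, IsP (C i)) (f : ∀ i, L i →ₗ[k] N)
    (h : ∀ i m, f i (C i m) = C' (f i m)) (hs : ⨆ i, LinearMap.range (f i) = ⊤) : IsP C' := by
  rw [isP_iff, eq_top_iff, ← hs]
  refine iSup_le fun i => ?_
  rintro _ ⟨m, rfl⟩
  exact map_Psub (f i) (h i) (hC i m)

/-- Property (P) passes to quotients. -/
theorem IsP.of_surjective {C : M →ₗ[k] M} {C' : N →ₗ[k] N} (hC : IsP C) (f : M →ₗ[k] N)
    (hf : Function.Surjective f) (h : ∀ m, f (C m) = C' (f m)) : IsP C' := by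
  intro n
  obtain ⟨m, rfl⟩ := hf n
  exact map_Psub f h (hC m)

/-- Property (P) passes to subspaces. -/
theorem IsP.of_injective {C : M →ₗ[k] M} {C' : N →ₗ[k] N} (hC : IsP C') (f : M →ₗ[k] N)
    (hf : Function.Injective f) (h : ∀ m, f (C m) = C' (f m)) : IsP C := by
  intro m
  obtain ⟨q, hq, e⟩ := hC (f m)
  refine ⟨q, hq, hf ?_⟩
  rw [h, map_aeval f h, e, map_zero]

/-- The normalised form of property (P). -/
theorem IsP.exists_sub {C : M →ₗ[k] M} (hC : IsP C) (m : M) :
    ∃ r : k[X], C (m - C (aeval C r m)) = 0 := by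
  obtain ⟨q, hq, e⟩ := hC m
  refine ⟨-(Polynomial.C (q.eval 0)⁻¹ * divX q), ?_⟩
  have h1 : aeval C q m = C (aeval C (divX q) m) + q.eval 0 • m := by
    conv_lhs => rw [← divX_mul_X_add q, mul_comm (divX q) X]
    rw [map_add, map_mul, aeval_X, aeval_C, LinearMap.add_apply, Module.End.mul_apply,
      Polynomial.coeff_zero_eq_eval_zero]
    rfl
  have h2 : m - C (aeval C (-(Polynomial.C (q.eval 0)⁻¹ * divX q)) m)
      = (q.eval 0)⁻¹ • aeval C q m := by
    rw [h1, smul_add, smul_smul, inv_mul_cancel₀ hq, one_smul, map_neg, LinearMap.neg_apply,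
      map_neg, sub_neg_eq_add, map_mul, aeval_C, Module.End.mul_apply]
    rw [add_comm, Module.algebraMap_end_apply, map_smul]
  rw [h2, map_smul, e, smul_zero]

/-- On a quotient, the kernel of `C` is the image of the kernel. -/
theorem IsP.ker_surjective {C : M →ₗ[k] M} {C' : N →ₗ[k] N} (hC : IsP C) (f : M →ₗ[k] N)
    (hf : Function.Surjective f) (h : ∀ m, f (C m) = C' (f m)) {n : N} (hn : C' n = 0) :
    ∃ m, C m = 0 ∧ f m = n := by
  obtain ⟨m, rfl⟩ := hf n
  obtain ⟨r, hr⟩ := hC.exists_sub m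
  refine ⟨m - C (aeval C r m), hr, ?_⟩
  have e : C (aeval C r m) = aeval C r (C m) := map_aeval C (fun _ => rfl) r m
  rw [map_sub, e, map_aeval f h, h, hn, map_zero, sub_zero]

/-- Property (P) from local algebraicity and semisimplicity at `0`. -/
theorem isP_of_ker_sq {C : M →ₗ[k] M} (hloc : ∀ m, ∃ p : k[X], p ≠ 0 ∧ aeval C p m = 0)
    (hsq : ∀ m, C (C m) = 0 → C m = 0) : IsP C := by
  intro m
  obtain ⟨p, hp, e⟩ := hloc m
  obtain ⟨q, hq, hd⟩ := Polynomial.exists_eq_pow_rootMultiplicity_mul_and_not_dvd p hp 0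
  have hq0 : q.eval 0 ≠ 0 := fun h0 => hd (dvd_iff_isRoot.2 h0)
  refine ⟨q, hq0, ?_⟩
  have key : ∀ (n : ℕ) (x : M), (C ^ n) x = 0 → C x = 0 := by
    intro n
    induction n with
    | zero => intro x hx; rw [pow_zero] at hx; rw [show x = 0 from hx, map_zero]
    | succ n ih =>
      intro x hx
      rw [pow_succ, Module.End.mul_apply] at hx
      exact hsq x (ih _ hx)
  refine key (rootMultiplicity 0 p) _ ?_
  rw [hq] at e
  simpa using e

/-- Property (P) from an exhaustion by finite-dimensional stable subspaces. -/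
theorem isP_of_finite {C : M →ₗ[k] M}
    (hfin : ∀ m, ∃ W : Submodule k M, m ∈ W ∧ Module.Finite k W ∧ ∀ w ∈ W, C w ∈ W)
    (hsq : ∀ m, C (C m) = 0 → C m = 0) : IsP C := by
  refine isP_of_ker_sq (fun m => ?_) hsq
  obtain ⟨W, hm, hW, hst⟩ := hfin m
  let D : W →ₗ[k] W := C.restrict hst
  refine ⟨minpoly k D, minpoly.ne_zero (Algebra.IsIntegral.isIntegral D), ?_⟩
  have h := map_aeval (C := D) (C' := C) W.subtype (fun _ => rfl) (minpoly k D) ⟨m, hm⟩
  rw [minpoly.aeval] at h
  simpa using h.symm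

/-- A symmetric operator for a form with `B(x, x) = 0 → x = 0` has the kernel of its square. -/
theorem ker_sq_of_symm {C : M →ₗ[k] M} (B : M → M → k) (hB0 : ∀ y, B 0 y = 0)
    (hadj : ∀ x y, B (C x) y = B x (C y))
    (hdef : ∀ x, B x x = 0 → x = 0) (x : M) (hx : C (C x) = 0) : C x = 0 := by
  refine hdef _ ?_
  rw [← hadj, hx, hB0]

end Basic

section Tensor

open scoped TensorProduct

variable {k : Type*} [Field k] {M L : Type*} [AddCommGroup M] [Module k M] [AddCommGroup L]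
  [Module k L]

/-- Property (P) passes to `L ⊗ M`. -/
theorem IsP.lTensor {C : M →ₗ[k] M} (hC : IsP C) : IsP (C.lTensor L) := by
  rw [isP_iff, eq_top_iff]
  intro x _
  induction x with
  | zero => exact zero_mem _
  | tmul l m =>
    exact map_Psub (TensorProduct.mk k L M l) (fun m => by simp) (hC m)
  | add x y hx hy => exact add_mem (hx trivial) (hy trivial)

/-- Property (P) passes to `M ⊗ L`. -/
theorem IsP.rTensor {C : M →ₗ[k] M} (hC : IsP C) : IsP (C.rTensor L) := by
  rw [isP_iff, eq_top_iff]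
  intro x _
  induction x with
  | zero => exact zero_mem _
  | tmul m l =>
    exact map_Psub ((TensorProduct.mk k M L).flip l) (fun m => by simp) (hC m)
  | add x y hx hy => exact add_mem (hx trivial) (hy trivial)

/-- The kernel of `id ⊗ C`. -/
theorem ker_lTensor {C : M →ₗ[k] M} (x : L ⊗[k] M) (hx : C.lTensor L x = 0) :
    ∃ y : L ⊗[k] (LinearMap.ker C), (LinearMap.ker C).subtype.lTensor L y = x := by
  have h : Function.Exact (LinearMap.ker C).subtype C := fun y => by simp
  exact (Module.Flat.lTensor_exact L h x).1 hx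

/-- The kernel of `C ⊗ id`. -/
theorem ker_rTensor {C : M →ₗ[k] M} (x : M ⊗[k] L) (hx : C.rTensor L x = 0) :
    ∃ y : (LinearMap.ker C) ⊗[k] L, (LinearMap.ker C).subtype.rTensor L y = x := by
  have h : Function.Exact (LinearMap.ker C).subtype C := fun y => by simp
  exact (Module.Flat.rTensor_exact L h x).1 hx

/-- Property (P) passes to functions on a finite set. -/
theorem IsP.pi {ι : Type*} [Finite ι] {C : M →ₗ[k] M} (hC : IsP C)
    {C' : (ι → M) →ₗ[k] (ι → M)} (h : ∀ x i, C' x i = C (x i)) : IsP C' := by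
  classical
  cases nonempty_fintype ι
  refine IsP.of_span (C := fun _ : ι => C) (fun _ => hC) (fun i => LinearMap.single k (fun _ => M) i)
    (fun i m => ?_) ?_
  · funext j
    rw [h]
    by_cases hj : j = i
    · subst hj; simp
    · simp [hj]
  · rw [eq_top_iff]
    intro x _
    rw [← Finset.univ_sum_single x]
    exact Submodule.sum_mem _ fun i _ => Submodule.mem_iSup_of_mem i ⟨x i, rfl⟩

end Tensor

section Complex

variable {k : Type*} [Field k] {E : Type*} [AddCommGroup E] [Module k E]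
variable {d h C : E →ₗ[k] E}

theorem comm_d (dd : ∀ x, d (d x) = 0) (hC : ∀ x, d (h x) + h (d x) = C x) (x : E) :
    d (C x) = C (d x) := by
  rw [← hC, ← hC, map_add, dd, dd, map_zero, zero_add, add_zero]

/-- Every closed element is the sum of a closed element of the kernel and of an exact one. -/
theorem closed_eq {gr : ℤ → Submodule k E} (hd : ∀ m, ∀ x ∈ gr m, d x ∈ gr (m + 1))
    (hh : ∀ m, ∀ x ∈ gr m, h x ∈ gr (m - 1))
    (dd : ∀ x, d (d x) = 0) (hC : ∀ x, d (h x) + h (d x) = C x) (P : IsP C) (m : ℤ) (z : E)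
    (hz : z ∈ gr m) (dz : d z = 0) :
    ∃ w ∈ gr m, C w = 0 ∧ d w = 0 ∧ ∃ y ∈ gr (m - 1), d y = z - w := by
  have hCg : ∀ m, ∀ x ∈ gr m, C x ∈ gr m := by
    intro m x hx
    rw [← hC]
    refine add_mem ?_ ?_
    · have := hd _ _ (hh m x hx); rwa [sub_add_cancel] at this
    · have := hh _ _ (hd m x hx); rwa [add_sub_cancel_right] at this
  have hpol : ∀ (r : k[X]) (m : ℤ) (x : E), x ∈ gr m → aeval C r x ∈ gr m := by
    intro r m x hx
    let D : gr m →ₗ[k] gr m := C.restrict (hCg m)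
    have := map_aeval (C := D) (C' := C) (gr m).subtype (fun _ => rfl) r ⟨x, hx⟩
    have e : aeval C r x = (gr m).subtype (aeval D r ⟨x, hx⟩) := this.symm
    rw [e]
    exact (aeval D r ⟨x, hx⟩).2
  have hdC : ∀ x, d (C x) = C (d x) := comm_d dd hC
  obtain ⟨r, hr⟩ := P.exists_sub z
  have hdr : d (aeval C r z) = 0 := by
    rw [map_aeval d hdC, dz, map_zero]
  have e : C (aeval C r z) = d (h (aeval C r z)) := by
    rw [← hC, hdr, map_zero, add_zero]
  refine ⟨z - C (aeval C r z), sub_mem hz (hCg _ _ (hpol r m z hz)), hr, ?_,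
    h (aeval C r z), hh _ _ (hpol r m z hz), ?_⟩
  · rw [map_sub, dz, e, dd, sub_zero]
  · rw [sub_sub_cancel, e]

/-- A closed element of the kernel which is exact is the differential of an element of the
kernel. -/
theorem exact_ker {gr : ℤ → Submodule k E} (hd : ∀ m, ∀ x ∈ gr m, d x ∈ gr (m + 1))
    (hh : ∀ m, ∀ x ∈ gr m, h x ∈ gr (m - 1))
    (dd : ∀ x, d (d x) = 0) (hC : ∀ x, d (h x) + h (d x) = C x) (P : IsP C) (m : ℤ) (y : E)
    (hy : y ∈ gr m) (hCz : C (d y) = 0) :
    ∃ y' ∈ gr m, C y' = 0 ∧ d y' = d y := by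
  have hCg : ∀ m, ∀ x ∈ gr m, C x ∈ gr m := by
    intro m x hx
    rw [← hC]
    refine add_mem ?_ ?_
    · have := hd _ _ (hh m x hx); rwa [sub_add_cancel] at this
    · have := hh _ _ (hd m x hx); rwa [add_sub_cancel_right] at this
  have hpol : ∀ (r : k[X]) (m : ℤ) (x : E), x ∈ gr m → aeval C r x ∈ gr m := by
    intro r m x hx
    let D : gr m →ₗ[k] gr m := C.restrict (hCg m)
    have := map_aeval (C := D) (C' := C) (gr m).subtype (fun _ => rfl) r ⟨x, hx⟩
    have e : aeval C r x = (gr m).subtype (aeval D r ⟨x, hx⟩) := this.symm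
    rw [e]
    exact (aeval D r ⟨x, hx⟩).2
  have hdC : ∀ x, d (C x) = C (d x) := comm_d dd hC
  obtain ⟨r, hr⟩ := P.exists_sub y
  refine ⟨y - C (aeval C r y), sub_mem hy (hCg _ _ (hpol r m y hy)), hr, ?_⟩
  have e : C (aeval C r y) = aeval C r (C y) := map_aeval C (fun _ => rfl) r y
  rw [map_sub, e, map_aeval d hdC, hdC, hCz, map_zero, sub_zero]

end Complex

section GD

open Vale.Agent.P286.H847 Vale.Agent.P286.H847.GD

/-- The main statement: if `C = d h + h d` has property (P) and if `u` identifies its source with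
the kernel of `C` then `u` is a quasi-isomorphism. -/
theorem qis_of_ker {K E : GD} (u : Hom K E) (h C : E.V →ₗ[ℂ] E.V)
    (hh : ∀ m, ∀ x ∈ E.gr m, h x ∈ E.gr (m - 1)) (hC : ∀ x, E.d (h x) + h (E.d x) = C x)
    (P : IsP C) (hinj : ∀ x y, u.f x = u.f y → x = y) (hu : ∀ x, C (u.f x) = 0)
    (hs : ∀ m, ∀ x ∈ E.gr m, C x = 0 → ∃ y ∈ K.gr m, u.f y = x) : Qis u := by
  intro m
  refine ⟨?_, ?_⟩
  · rintro x hx hd ⟨y, hy, e⟩
    obtain ⟨y', hy', hCy', e'⟩ := exact_ker (d := E.d) E.dgr hh E.dd hC P (m - 1) y hy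
      (by rw [e, hu])
    obtain ⟨x', hx', e2⟩ := hs _ y' hy' hCy'
    refine ⟨x', hx', hinj _ _ ?_⟩
    rw [u.comm, e2, e', e]
  · intro z hz dz
    obtain ⟨w, hw, hCw, hdw, y, hy, e⟩ := closed_eq (d := E.d) E.dgr hh E.dd hC P m z hz dz
    obtain ⟨x, hx, e2⟩ := hs _ w hw hCw
    refine ⟨x, hx, hinj _ _ ?_, y, hy, by rw [e, e2]⟩
    rw [u.comm, e2, hdw, map_zero]

/-- The kernel of an operator which commutes with the differential. -/
def kerGD (E : GD) (C : E.V →ₗ[ℂ] E.V) (hC : ∀ x, E.d (C x) = C (E.d x)) : GD where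
  V := LinearMap.ker C
  d := E.d.restrict (p := LinearMap.ker C) (q := LinearMap.ker C) (fun x hx => by
    rw [LinearMap.mem_ker] at hx ⊢
    rw [← hC, hx, map_zero])
  dd x := Subtype.ext (E.dd x.1)
  gr m := (E.gr m).comap (LinearMap.ker C).subtype
  dgr m x hx := E.dgr m x.1 hx

/-- The inclusion of the kernel. -/
def kerHom (E : GD) (C : E.V →ₗ[ℂ] E.V) (hC : ∀ x, E.d (C x) = C (E.d x)) :
    Hom (kerGD E C hC) E where
  f := (LinearMap.ker C).subtype
  comm _ := rfl
  deg _ _ hx := hx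

theorem qis_kerHom (E : GD) (h C : E.V →ₗ[ℂ] E.V)
    (hh : ∀ m, ∀ x ∈ E.gr m, h x ∈ E.gr (m - 1)) (hC : ∀ x, E.d (h x) + h (E.d x) = C x)
    (P : IsP C) (hdC : ∀ x, E.d (C x) = C (E.d x)) : Qis (kerHom E C hdC) :=
  qis_of_ker _ h C hh hC P (fun _ _ e => Subtype.ext e) (fun x => x.2)
    (fun _ x hx hx0 => ⟨⟨x, hx0⟩, hx, rfl⟩)

/-- If `C` is moreover injective then the complex is exact. -/
theorem exact_of_ker (E : GD) (h C : E.V →ₗ[ℂ] E.V)
    (hh : ∀ m, ∀ x ∈ E.gr m, h x ∈ E.gr (m - 1)) (hC : ∀ x, E.d (h x) + h (E.d x) = C x)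
    (P : IsP C) (hex : ∀ m, ∀ x ∈ E.gr m, C x = 0 → E.d x = 0 →
      ∃ y ∈ E.gr (m - 1), E.d y = x) : E.Exact := by
  intro m x hx dx
  obtain ⟨w, hw, hCw, hdw, y, hy, e⟩ := closed_eq (d := E.d) E.dgr hh E.dd hC P m x hx dx
  obtain ⟨y', hy', e'⟩ := hex m w hw hCw hdw
  exact ⟨y + y', add_mem hy hy', by rw [map_add, e, e', sub_add_cancel]⟩

end GD

end Vale.Agent.P286.H761
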