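import Vale.Agent.P286.H295.Coprod
import Vale.Agent.P286.H761.Tot

/-!
# Semi-cosimplicial test objects of `BG`, and functors with values in graded differential spaces
-/

namespace Vale.Agent.P286.H761

open CategoryTheory Vale.Agent.P286.Gen Vale.Agent.P286.H295 Vale.Agent.P286.H847
  Vale.Agent.P286.H847.GD

noncomputable section

/-! ### Functors with values in graded differential spaces -/

/-- A functor with values in graded differential spaces. -/
structure GF (C : Type 1) [Category.{0} C] : Type 1 where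
  obj : C → GD
  map : ∀ {X Y : C}, (X ⟶ Y) → Hom (obj X) (obj Y)
  map_id : ∀ X x, (map (𝟙 X)).f x = x
  map_comp : ∀ {X Y Z : C} (φ : X ⟶ Y) (ψ : Y ⟶ Z) x,
    (map (φ ≫ ψ)).f x = (map ψ).f ((map φ).f x)

namespace GF

variable {C : Type 1} [Category.{0} C]

/-- Natural transformations. -/
structure Nat' (F G : GF C) where
  app : ∀ X, Hom (F.obj X) (G.obj X)
  nat : ∀ {X Y : C} (φ : X ⟶ Y) x, (app Y).f ((F.map φ).f x) = (G.map φ).f ((app X).f x)

/-- A natural transformation is a quasi-isomorphism. -/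
def Nat'.IsQis {F G : GF C} (u : Nat' F G) : Prop := ∀ X, Qis (u.app X)

/-- Natural families of linear maps. -/
def IsNat (F G : GF C) (f : ∀ X, (F.obj X).V →ₗ[ℂ] (G.obj X).V) : Prop :=
  ∀ {X Y : C} (φ : X ⟶ Y) x, f Y ((F.map φ).f x) = (G.map φ).f (f X x)

/-- The identity. -/
def Nat'.id (F : GF C) : Nat' F F := ⟨fun _ => Hom.id _, fun _ _ => rfl⟩

/-- The composition. -/
def Nat'.comp {F G H : GF C} (v : Nat' G H) (u : Nat' F G) : Nat' F H :=
  ⟨fun X => (v.app X).comp (u.app X), fun φ x => by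
    change (v.app _).f ((u.app _).f _) = (H.map φ).f ((v.app _).f ((u.app _).f x))
    rw [u.nat, v.nat]⟩

theorem map_eq (F : GF C) {X Y Z Z' : C} {φ : X ⟶ Z} {ψ : Z ⟶ Y} {φ' : X ⟶ Z'} {ψ' : Z' ⟶ Y}
    (h : φ ≫ ψ = φ' ≫ ψ') (x : (F.obj X).V) :
    (F.map ψ).f ((F.map φ).f x) = (F.map ψ').f ((F.map φ').f x) := by
  rw [← F.map_comp, ← F.map_comp, h]

theorem map_eq_id (F : GF C) {X Z : C} {φ : X ⟶ Z} {ψ : Z ⟶ X}
    (h : φ ≫ ψ = 𝟙 X) (x : (F.obj X).V) :
    (F.map ψ).f ((F.map φ).f x) = x := by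
  rw [← F.map_comp, h, F.map_id]

end GF

/-- A semi-cosimplicial object of a category. -/
structure CO (C : Type 1) [Category.{0} C] : Type 1 where
  P : ℕ → C
  fc : ∀ k : ℕ, ℕ → (P k ⟶ P (k + 1))
  rel : ∀ k i j : ℕ, i ≤ j → j ≤ k + 1 → fc k i ≫ fc (k + 1) (j + 1) = fc k j ≫ fc (k + 1) i

/-- A morphism of semi-cosimplicial objects. -/
structure COM {C : Type 1} [Category.{0} C] (P Q : CO C) where
  f : ∀ k, P.P k ⟶ Q.P k
  face : ∀ k i, i ≤ k + 1 → P.fc k i ≫ f (k + 1) = f k ≫ Q.fc k i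

section Values

variable {C : Type 1} [Category.{0} C]

/-- The values of a functor on a semi-cosimplicial object. -/
abbrev GF.cs (F : GF C) (P : CO C) : CS where
  X k := F.obj (P.P k)
  fc k i := F.map (P.fc k i)
  rel k i j hi hj x := F.map_eq (P.rel k i j hi hj) x

/-- Functoriality in the semi-cosimplicial object. -/
abbrev GF.csM (F : GF C) {P Q : CO C} (u : COM P Q) : CS.Mor (F.cs P) (F.cs Q) where
  f k := F.map (u.f k)
  face k i hi x := F.map_eq (u.face k i hi) x

/-- Functoriality in the functor. -/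
abbrev GF.Nat'.cs {F G : GF C} (u : GF.Nat' F G) (P : CO C) : CS.Mor (F.cs P) (G.cs P) where
  f k := u.app (P.P k)
  face k i _ x := u.nat (P.fc k i) x

theorem GF.fcComm {F G : GF C} {f : ∀ X, (F.obj X).V →ₗ[ℂ] (G.obj X).V} (h : GF.IsNat F G f)
    (P : CO C) : CS.FcComm (X := F.cs P) (Y := G.cs P) (fun k => f (P.P k)) :=
  fun k i _ x => h (P.fc k i) x

theorem GF.Nat'.qis_tot {F G : GF C} (u : GF.Nat' F G) (P : CO C)
    (h : ∀ k, Qis (u.app (P.P k))) : Qis (u.cs P).tot := (u.cs P).qis_tot h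

end Values

/-! ### The semi-cosimplicial objects built from the coproduct with the point -/

section Cop

variable {N : ℕ} {Γ : Gps N} [hs : Algebra.Smooth ℂ (Of Γ)]

/-- The first object and the first face. -/
structure Stt (Γ : Gps N) [Algebra.Smooth ℂ (Of Γ)] where
  X : Gen.BGObj Γ
  d : X ⟶ cop X
  h : d ≫ copM (inl X) = d ≫ copM d

namespace Stt

variable (S : Stt Γ)

/-- The objects. -/
def P : ℕ → Gen.BGObj Γ
  | 0 => S.X
  | (k + 1) => cop (P k)

/-- The faces. -/
def fc : ∀ k : ℕ, ℕ → (S.P k ⟶ S.P (k + 1))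
  | 0, i => if i = 0 then S.d else inl S.X
  | (k + 1), i => if i ≤ k + 1 then copM (fc k i) else inl (S.P (k + 1))

theorem fc_zero_zero : S.fc 0 0 = S.d := rfl

theorem fc_last (k : ℕ) : S.fc k (k + 1) = inl (S.P k) := by
  cases k with
  | zero => rfl
  | succ k => exact if_neg (by omega)

theorem fc_succ (k i : ℕ) (h : i ≤ k + 1) : S.fc (k + 1) i = copM (S.fc k i) := if_pos h

theorem rel : ∀ k i j : ℕ, i ≤ j → j ≤ k + 1 →
    S.fc k i ≫ S.fc (k + 1) (j + 1) = S.fc k j ≫ S.fc (k + 1) i := by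
  have hlast : ∀ k i : ℕ, i ≤ k + 1 →
      S.fc k i ≫ S.fc (k + 1) (k + 1 + 1) = S.fc k (k + 1) ≫ S.fc (k + 1) i := by
    intro k i hi
    rw [fc_last S (k + 1), fc_last S k, fc_succ S k i hi]
    exact (inl_copM (S.fc k i)).symm
  intro k
  induction k with
  | zero =>
    intro i j hi hj
    obtain rfl | rfl : j = 0 + 1 ∨ j = 0 := by omega
    · exact hlast 0 i hi
    · obtain rfl : i = 0 := by omega
      rw [fc_succ S 0 (0 + 1) le_rfl, fc_succ S 0 0 (Nat.zero_le _), fc_last S 0]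
      exact S.h
  | succ k ih =>
    intro i j hi hj
    rcases Nat.lt_or_ge j (k + 2) with h | h
    · have e3 := fc_succ S k i (by omega)
      have e4 := fc_succ S k j (by omega)
      rw [fc_succ S (k + 1) (j + 1) (by omega), fc_succ S (k + 1) i (by omega)]
      have h1 : S.fc (k + 1) i ≫ copM (S.fc (k + 1) (j + 1))
          = copM (S.fc k i ≫ S.fc (k + 1) (j + 1)) := by
        rw [copM_comp]
        exact congrArg (fun t => t ≫ copM (S.fc (k + 1) (j + 1))) e3
      have h2 : S.fc (k + 1) j ≫ copM (S.fc (k + 1) i)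
          = copM (S.fc k j ≫ S.fc (k + 1) i) := by
        rw [copM_comp]
        exact congrArg (fun t => t ≫ copM (S.fc (k + 1) i)) e4
      exact (h1.trans (congrArg copM (ih i j hi (by omega)))).trans h2.symm
    · obtain rfl : j = k + 1 + 1 := by omega
      exact hlast (k + 1) i hi

/-- The semi-cosimplicial object. -/
def co : CO (Gen.BGObj Γ) := ⟨S.P, S.fc, S.rel⟩

/-- A morphism of initial data. -/
structure Map (S T : Stt Γ) where
  f : S.X ⟶ T.X
  h : S.d ≫ copM f = f ≫ T.d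

variable {S} {T U : Stt Γ}

/-- The induced morphisms. -/
def Map.P (u : Map S T) : ∀ k, S.P k ⟶ T.P k
  | 0 => u.f
  | (k + 1) => copM (Map.P u k)

theorem Map.face (u : Map S T) : ∀ k i, i ≤ k + 1 →
    S.fc k i ≫ u.P (k + 1) = u.P k ≫ T.fc k i := by
  have hlast : ∀ k, S.fc k (k + 1) ≫ u.P (k + 1) = u.P k ≫ T.fc k (k + 1) := by
    intro k
    rw [fc_last, fc_last]
    exact inl_copM _
  intro k
  induction k with
  | zero =>
    intro i hi
    obtain rfl | rfl : i = 0 + 1 ∨ i = 0 := by omega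
    · exact hlast 0
    · exact u.h
  | succ k ih =>
    intro i hi
    rcases Nat.lt_or_ge i (k + 2) with h | h
    · rw [fc_succ _ k i (by omega), fc_succ _ k i (by omega)]
      exact ((copM_comp _ _).symm.trans (congrArg copM (ih i (by omega)))).trans (copM_comp _ _)
    · obtain rfl : i = k + 1 + 1 := by omega
      exact hlast (k + 1)

/-- The induced morphism of semi-cosimplicial objects. -/
def Map.co (u : Map S T) : COM S.co T.co := ⟨u.P, u.face⟩

/-- The identity. -/
def Map.id (S : Stt Γ) : Map S S := ⟨𝟙 _, by rw [copM_id, Category.comp_id, Category.id_comp]⟩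

/-- The composition (first `u`, then `v`). -/
def Map.comp (u : Map S T) (v : Map T U) : Map S U :=
  ⟨u.f ≫ v.f, by rw [copM_comp, ← Category.assoc, u.h, Category.assoc, v.h, Category.assoc]⟩

theorem Map.id_P (S : Stt Γ) (k : ℕ) : (Map.id S).P k = 𝟙 (S.P k) := by
  induction k with
  | zero => rfl
  | succ k ih => exact (congrArg copM ih).trans (copM_id _)

theorem Map.comp_P (u : Map S T) (v : Map T U) (k : ℕ) :
    (u.comp v).P k = u.P k ≫ v.P k := by
  induction k with
  | zero => rfl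
  | succ k ih => exact (congrArg copM ih).trans (copM_comp _ _)

theorem Map.P_congr {u v : Map S T} (h : u.f = v.f) (k : ℕ) : u.P k = v.P k := by
  induction k with
  | zero => exact h
  | succ k ih => exact congrArg copM ih

end Stt

/-- The powers of the point. -/
def ptS (Γ : Gps N) [Algebra.Smooth ℂ (Of Γ)] : Stt Γ :=
  ⟨BPt Γ, inr (BPt Γ), by rw [inr_copM, inr_copM]⟩

/-- The objects under `A`: the coproducts of `A` with the powers of the point. -/
def undS (A : Gen.BGObj Γ) : Stt Γ :=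
  ⟨cop A, copM (inl A), by rw [← copM_comp, ← copM_comp, inl_copM]⟩

/-- Functoriality of the objects under `A`. -/
def undM {A B : Gen.BGObj Γ} (φ : A ⟶ B) : Stt.Map (undS A) (undS B) :=
  ⟨copM φ, by
    change copM (inl A) ≫ copM (copM φ) = copM φ ≫ copM (inl B)
    rw [← copM_comp, ← copM_comp, inl_copM]⟩

/-- The comparison from the powers of the point. -/
def jS (A : Gen.BGObj Γ) : Stt.Map (ptS Γ) (undS A) :=
  ⟨inr A, by
    change inr (BPt Γ) ≫ copM (inr A) = inr A ≫ copM (inl A)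
    rw [inr_copM, inr_copM]⟩

theorem jS_undM {A B : Gen.BGObj Γ} (φ : A ⟶ B) (k : ℕ) :
    (jS A).P k ≫ (undM φ).P k = (jS B).P k := by
  rw [← Stt.Map.comp_P]
  exact Stt.Map.P_congr (inr_copM φ) k

theorem undM_id (A : Gen.BGObj Γ) (k : ℕ) : (undM (𝟙 A)).P k = 𝟙 ((undS A).P k) := by
  rw [← Stt.Map.id_P]
  exact Stt.Map.P_congr (copM_id A) k

theorem undM_comp {A B D : Gen.BGObj Γ} (φ : A ⟶ B) (ψ : B ⟶ D) (k : ℕ) :
    (undM (φ ≫ ψ)).P k = (undM φ).P k ≫ (undM ψ).P k := by
  rw [← Stt.Map.comp_P]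
  exact Stt.Map.P_congr (copM_comp φ ψ) k

/-! ### Values and contractions -/

variable (F : GF (Gen.BGObj Γ))

/-- The functor composed with the coproduct with the point. -/
abbrev copG : GF (Gen.BGObj Γ) where
  obj X := F.obj (cop X)
  map φ := F.map (copM φ)
  map_id X x := by rw [copM_id, F.map_id]
  map_comp φ ψ x := by rw [copM_comp, F.map_comp]

/-- The value at the point is mapped to all coproducts with the point. -/
def conAug : CS.Aug ((copG F).cs (ptS Γ).co) (F.obj (BPt Γ)) where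
  e := F.map (inr (BPt Γ))
  eq y := by
    change (F.map (copM (inr (BPt Γ)))).f _ = (F.map (copM (inl (BPt Γ)))).f _
    exact F.map_eq (by rw [inr_copM, inr_copM]) y

/-- The retraction of a coproduct with two points. -/
def fold2 (X : Gen.BGObj Γ) : cop (cop X) ⟶ cop X := dsc (𝟙 (cop X)) (cg X)

theorem inl_fold2 (X : Gen.BGObj Γ) : inl (cop X) ≫ fold2 X = 𝟙 (cop X) := inl_dsc _ _

theorem inr_fold2 (X : Gen.BGObj Γ) : inr (cop X) ≫ fold2 X = inr X := inr_dsc _ _

theorem copM_inl_fold2 (X : Gen.BGObj Γ) : copM (inl X) ≫ fold2 X = 𝟙 (cop X) := by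
  refine cop_ext ?_ ?_
  · rw [← Category.assoc, inl_copM, Category.assoc, inl_fold2, Category.comp_id]
  · rw [← Category.assoc, inr_copM, inr_fold2]
    exact (Category.comp_id _).symm

theorem fold2_nat {X Y : Gen.BGObj Γ} (φ : X ⟶ Y) :
    copM (copM φ) ≫ fold2 Y = fold2 X ≫ copM φ := by
  refine cop_ext ?_ ?_
  · rw [← Category.assoc, inl_copM, Category.assoc, inl_fold2, ← Category.assoc, inl_fold2,
      Category.comp_id, Category.id_comp]
  · rw [← Category.assoc, inr_copM, inr_fold2, ← Category.assoc, inr_fold2, inr_copM]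

/-- The fold of two points. -/
def foldPt (Γ : Gps N) [Algebra.Smooth ℂ (Of Γ)] : cop (BPt Γ) ⟶ BPt Γ := dsc (𝟙 (BPt Γ)) 1

omit hs in
theorem bm_pt_one : bm (X := BPt Γ) (Y := BPt Γ) (Algebra.ofId ℂ (BPt Γ).A.R) 1 = 𝟙 (BPt Γ) :=
  bm_ext (AlgHom.ext fun _ => rfl) rfl

theorem inr_foldPt : inr (BPt Γ) ≫ foldPt Γ = 𝟙 (BPt Γ) := (inr_dsc _ _).trans bm_pt_one

theorem inl_foldPt : inl (BPt Γ) ≫ foldPt Γ = 𝟙 (BPt Γ) := inl_dsc _ _

theorem foldPt_inr : copM (inr (BPt Γ)) ≫ fold2 (BPt Γ) = foldPt Γ ≫ inr (BPt Γ) := by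
  refine cop_ext ?_ ?_
  · rw [← Category.assoc, inl_copM, Category.assoc, inl_fold2, ← Category.assoc, inl_foldPt,
      Category.comp_id, Category.id_comp]
  · rw [← Category.assoc, inr_copM, inr_fold2, ← Category.assoc, inr_foldPt, Category.id_comp]

/-- **Contraction.**  The value at the point is quasi-isomorphic to the total of the values at the
coproducts of the powers of the point with the point. -/
theorem qis_con : Qis (conAug F).tot := by
  refine CS.qis_of_last (conAug F) (fun k => F.map (fold2 ((ptS Γ).P k))) (F.map (foldPt Γ))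
    ?_ ?_ ?_ ?_
  · exact fun y => F.map_eq_id inr_foldPt y
  · exact fun x => F.map_eq foldPt_inr x
  · intro k x
    refine F.map_eq_id ?_ x
    change copM ((ptS Γ).fc k (k + 1)) ≫ _ = _
    rw [Stt.fc_last]
    exact copM_inl_fold2 _
  · intro k i hi x
    refine F.map_eq ?_ x
    change copM ((ptS Γ).fc (k + 1) i) ≫ _ = _
    rw [Stt.fc_succ _ k i hi]
    exact fold2_nat _

/-- The augmentation of the objects under `A`. -/
def undAug (A : Gen.BGObj Γ) : CS.Aug (F.cs (undS A).co) (F.obj A) where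
  e := F.map (inl A)
  eq y := F.map_eq (inl_copM (inl A)) y

/-- The retraction of `A ⊔ pt`. -/
def foldU (A : Gen.BGObj Γ) : cop A ⟶ A := dsc (𝟙 A) 1

theorem inl_foldU (A : Gen.BGObj Γ) : inl A ≫ foldU A = 𝟙 A := inl_dsc _ _

/-- The codegeneracies. -/
def sU (A : Gen.BGObj Γ) : ∀ k, (undS A).P (k + 1) ⟶ (undS A).P k
  | 0 => copM (foldU A)
  | (k + 1) => copM (sU A k)

theorem fc_sU (A : Gen.BGObj Γ) (k : ℕ) : (undS A).fc k 0 ≫ sU A k = 𝟙 _ := by
  induction k with
  | zero =>
    change copM (inl A) ≫ copM (foldU A) = _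
    rw [← copM_comp, inl_foldU, copM_id]
    rfl
  | succ k ih =>
    rw [Stt.fc_succ _ k 0 (Nat.zero_le _)]
    exact ((copM_comp _ _).symm.trans (congrArg copM ih)).trans (copM_id _)

theorem fc_sU_succ (A : Gen.BGObj Γ) : ∀ k, ∀ i ≤ k + 1,
    (undS A).fc (k + 1) (i + 1) ≫ sU A (k + 1) = sU A k ≫ (undS A).fc k i := by
  have hlast : ∀ k, (undS A).fc (k + 1) (k + 1 + 1) ≫ sU A (k + 1)
      = sU A k ≫ (undS A).fc k (k + 1) := by
    intro k
    rw [Stt.fc_last, Stt.fc_last]
    exact inl_copM _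
  intro k
  induction k with
  | zero =>
    intro i hi
    obtain rfl | rfl : i = 0 + 1 ∨ i = 0 := by omega
    · exact hlast 0
    · rw [Stt.fc_succ _ 0 (0 + 1) le_rfl, Stt.fc_last]
      change copM (inl (cop A)) ≫ copM (copM (foldU A)) = copM (foldU A) ≫ copM (inl A)
      rw [← copM_comp, ← copM_comp, inl_copM]
  | succ k ih =>
    intro i hi
    rcases Nat.lt_or_ge i (k + 2) with h | h
    · rw [Stt.fc_succ _ (k + 1) (i + 1) (by omega), Stt.fc_succ _ k i (by omega)]
      exact ((copM_comp _ _).symm.trans (congrArg copM (ih i (by omega)))).trans (copM_comp _ _)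
    · obtain rfl : i = k + 1 + 1 := by omega
      exact hlast (k + 1)

/-- **Contraction.**  The value at `A` is quasi-isomorphic to the total of the values at the
coproducts of `A` with the powers of the point. -/
theorem qis_und (A : Gen.BGObj Γ) : Qis (undAug F A).tot := by
  refine CS.qis_of_first (undAug F A) (fun k => F.map (sU A k)) (F.map (foldU A)) ?_ ?_ ?_ ?_
  · exact fun y => F.map_eq_id (inl_foldU A) y
  · refine fun x => F.map_eq ?_ x
    change (undS A).fc 0 (0 + 1) ≫ sU A 0 = _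
    rw [Stt.fc_last]
    exact inl_copM _
  · exact fun k x => F.map_eq_id (fc_sU A k) x
  · exact fun k i hi x => F.map_eq (fc_sU_succ A k i hi) x

end Cop

end

end Vale.Agent.P286.H761
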