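import Vale.Agent.P286.H761.Cosi2

/-!
# Cochains and odd operators on totals
-/

namespace Vale.Agent.P286.H761

open CategoryTheory Vale.Agent.P286.H847 Vale.Agent.P286.H847.GD

noncomputable section

/-- The sign `(-1)^p` as a complex number. -/
def sz (p : ℤ) : ℂ := ((p.negOnePow : ℤ) : ℂ)

@[simp] theorem sz_zero : sz 0 = 1 := by simp [sz]

@[simp] theorem sz_one : sz 1 = -1 := by simp [sz]

theorem sz_add (p q : ℤ) : sz (p + q) = sz p * sz q := by
  simp [sz, Int.negOnePow_add]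

theorem sz_succ (p : ℤ) : sz (p + 1) = - sz p := by
  rw [sz_add, sz_one, mul_neg, mul_one]

theorem sz_mul_self (p : ℤ) : sz p * sz p = 1 := by
  rw [← sz_add]
  have h : Even (p + p) := ⟨p, rfl⟩
  simp [sz, Int.negOnePow_even _ h]

theorem sz_smul {M : Type*} [AddCommGroup M] [Module ℂ M] (p : ℤ) (x : M) :
    sz p • x = (p.negOnePow : ℤ) • x := by
  rw [sz, Int.cast_smul_eq_zsmul]

namespace CS

variable {X Y Z : CS}

/-- The differential of a cochain, on totals. -/
theorem totLin_delta {σ : ℂ} (hσ : σ * σ = 1) {f : ∀ k, (X.X k).V →ₗ[ℂ] (Y.X k).V}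
    (hf : FcComm f) (v : X.Tot.V) :
    totLin (X := X) (Y := Y) (-σ)
        (fun k => (Y.X k).d.comp (f k) - σ • (f k).comp (X.X k).d) v
      = Y.Tot.d (totLin σ f v) - σ • totLin σ f (X.Tot.d v) := by
  funext k
  match k with
  | 0 =>
    change (-σ) ^ 0 • ((Y.X 0).d (f 0 (v 0)) - σ • f 0 ((X.X 0).d (v 0)))
      = (Y.X 0).d (σ ^ 0 • f 0 (v 0)) - σ • σ ^ 0 • f 0 ((X.X 0).d (v 0))
    simp
  | (k + 1) =>
    change (-σ) ^ (k + 1) • ((Y.X (k + 1)).d (f (k + 1) (v (k + 1))) -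
          σ • f (k + 1) ((X.X (k + 1)).d (v (k + 1))))
      = ((-1 : ℂ) ^ (k + 1) • (Y.X (k + 1)).d (σ ^ (k + 1) • f (k + 1) (v (k + 1))) +
          Y.dl k (σ ^ k • f k (v k))) - σ • σ ^ (k + 1) • f (k + 1) ((-1 : ℂ) ^ (k + 1) •
            (X.X (k + 1)).d (v (k + 1)) + X.dl k (v k))
    have e1 : σ * (σ ^ (k + 1) * 1) = σ ^ k := by
      rw [mul_one, pow_succ, ← mul_assoc, mul_comm σ, mul_assoc, hσ, mul_one]
    rw [map_add, map_smul, map_smul, hf.dl, map_smul, smul_add, smul_add, ← sub_sub, smul_sub,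
      smul_smul, smul_smul, smul_smul, smul_smul, smul_smul,
      show σ * (σ ^ (k + 1)) = σ ^ k by rw [← e1, mul_one], neg_pow σ]
    have e2 : (-1) ^ (k + 1) * σ ^ (k + 1) * σ = σ ^ k * (-1) ^ (k + 1) := by
      rw [← e1]; ring
    rw [e2]
    abel

end CS

variable {C : Type 1} [Category.{0} C]

/-- Natural families of linear maps of degree `p`. -/
@[ext]
structure GCoch (F G : GF C) (p : ℤ) where
  f : ∀ X, (F.obj X).V →ₗ[ℂ] (G.obj X).V
  nat : ∀ {X Y : C} (φ : X ⟶ Y) x, f Y ((F.map φ).f x) = (G.map φ).f (f X x)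
  deg : ∀ X m, ∀ x ∈ (F.obj X).gr m, f X x ∈ (G.obj X).gr (m + p)

namespace GCoch

variable {F G H : GF C} {p q r : ℤ}

/-- The total of a natural family. -/
def tot (a : GCoch F G p) (P : CO C) : (F.cs P).Tot.V →ₗ[ℂ] (G.cs P).Tot.V :=
  CS.totLin (X := F.cs P) (Y := G.cs P) (sz p) fun k => a.f (P.P k)

theorem tot_apply (a : GCoch F G p) (P : CO C) (v : (F.cs P).Tot.V) (k : ℕ) :
    (a.tot P v : ∀ k, (G.obj (P.P k)).V) k = sz p ^ k • a.f (P.P k) (v k) := rfl

theorem tot_gr (a : GCoch F G p) (P : CO C) (m : ℤ) (v : (F.cs P).Tot.V)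
    (hv : v ∈ (F.cs P).Tot.gr m) : a.tot P v ∈ (G.cs P).Tot.gr (m + p) :=
  CS.totLin_gr (fun k m x hx => a.deg (P.P k) m x hx) m v hv

/-- The identity. -/
def one (F : GF C) : GCoch F F 0 :=
  ⟨fun _ => LinearMap.id, fun _ _ => rfl, fun _ m x h => by rwa [add_zero]⟩

/-- The composition (first `a`, then `b`). -/
def cmp (a : GCoch F G p) (b : GCoch G H q) (h : p + q = r) : GCoch F H r :=
  ⟨fun X => (b.f X).comp (a.f X), fun φ x => by
      rw [LinearMap.comp_apply, LinearMap.comp_apply, a.nat, b.nat],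
    fun X m x hx => by
      have := b.deg X _ _ (a.deg X m x hx)
      rwa [add_assoc, h] at this⟩

/-- The differential. -/
def dl (a : GCoch F G p) (h : p + 1 = r) : GCoch F G r :=
  ⟨fun X => (G.obj X).d.comp (a.f X) - sz p • (a.f X).comp (F.obj X).d, fun φ x => by
      simp only [LinearMap.sub_apply, LinearMap.comp_apply, LinearMap.smul_apply, map_sub,
        map_smul]
      rw [a.nat, ← (F.map φ).comm, ← (G.map φ).comm, a.nat],
    fun X m x hx => by
      have h1 := (G.obj X).dgr' (n := m + r) (by omega) (a.deg X m x hx)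
      have h2 := a.deg X _ _ ((F.obj X).dgr m x hx)
      rw [show m + 1 + p = m + r by omega] at h2
      exact sub_mem h1 (Submodule.smul_mem _ _ h2)⟩

theorem tot_one (F : GF C) (P : CO C) (v : (F.cs P).Tot.V) : (one F).tot P v = v := by
  funext k
  rw [tot_apply, sz_zero, one_pow, one_smul]
  rfl

theorem tot_cmp (a : GCoch F G p) (b : GCoch G H q) (h : p + q = r) (P : CO C)
    (v : (F.cs P).Tot.V) : (a.cmp b h).tot P v = b.tot P (a.tot P v) := by
  funext k
  subst h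
  rw [tot_apply, tot_apply, tot_apply, map_smul, smul_smul, ← mul_pow, sz_add, mul_comm]
  rfl

theorem tot_dl (a : GCoch F G p) (h : p + 1 = r) (P : CO C) (v : (F.cs P).Tot.V) :
    (a.dl h).tot P v = (G.cs P).Tot.d (a.tot P v) - sz p • a.tot P ((F.cs P).Tot.d v) := by
  have h1 := CS.totLin_delta (X := F.cs P) (Y := G.cs P) (sz_mul_self p)
    (f := fun k => a.f (P.P k)) (fun k i _ x => a.nat (P.fc k i) x) v
  refine Eq.trans ?_ h1
  rw [← sz_succ, h]
  rfl

/-- Relations of the form `b a = c a' b'` pass to the totals. -/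
theorem tot_rel {G' : GF C} {p' q' : ℤ} {c : ℂ} (a : GCoch F G p) (b : GCoch G H q)
    (b' : GCoch F G' q') (a' : GCoch G' H p') (hs : sz q * sz p = sz p' * sz q')
    (h : ∀ X x, b.f X (a.f X x) = c • a'.f X (b'.f X x)) (P : CO C) (v : (F.cs P).Tot.V) :
    b.tot P (a.tot P v) = c • a'.tot P (b'.tot P v) := by
  funext k
  change sz q ^ k • b.f (P.P k) (sz p ^ k • a.f (P.P k) (v k)) =
    c • sz p' ^ k • a'.f (P.P k) (sz q' ^ k • b'.f (P.P k) (v k))
  rw [map_smul, map_smul, smul_smul, smul_smul (sz p' ^ k), ← mul_pow, ← mul_pow, hs, h,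
    smul_comm]

theorem tot_aug (a : GCoch F G p) (P : CO C) {A : C} (e : A ⟶ P.P 0)
    (h : e ≫ P.fc 0 0 = e ≫ P.fc 0 1) (y : (F.obj A).V) :
    a.tot P ((augOf F P e h).tot.f y) = (augOf G P e h).tot.f (a.f A y) :=
  CS.totLin_aug (augOf F P e h) (augOf G P e h) (sz p) (fun k => a.f (P.P k)) (a.f A)
    (fun y => a.nat e y) y

/-- Closed cochains of degree `0` are natural transformations. -/
def toNat (a : GCoch F G 0) (h : ∀ X x, a.f X ((F.obj X).d x) = (G.obj X).d (a.f X x)) :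
    GF.Nat' F G where
  app X := ⟨a.f X, h X, fun m x hx => by have := a.deg X m x hx; rwa [add_zero] at this⟩
  nat φ x := a.nat φ x

/-- Natural transformations are cochains of degree `0`. -/
def ofNat (u : GF.Nat' F G) : GCoch F G 0 :=
  ⟨fun X => (u.app X).f, u.nat, fun X m x hx => by rw [add_zero]; exact (u.app X).deg m x hx⟩

theorem ofNat_tot (u : GF.Nat' F G) (P : CO C) (v : (F.cs P).Tot.V) :
    (ofNat u).tot P v = (u.cs P).tot.f v := by
  funext k
  rw [tot_apply, sz_zero]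
  rfl

instance : Zero (GCoch F G p) := ⟨⟨fun _ => 0, by simp, fun _ _ _ _ => zero_mem _⟩⟩

instance : Add (GCoch F G p) := ⟨fun a b => ⟨fun X => a.f X + b.f X,
  by simp [a.nat, b.nat], fun X m x h => add_mem (a.deg X m x h) (b.deg X m x h)⟩⟩

instance : SMul ℂ (GCoch F G p) := ⟨fun c a => ⟨fun X => c • a.f X,
  by simp [a.nat], fun X m x h => Submodule.smul_mem _ c (a.deg X m x h)⟩⟩

@[simp] theorem zero_f (X : C) : (0 : GCoch F G p).f X = 0 := rfl
@[simp] theorem add_f (a b : GCoch F G p) (X : C) : (a + b).f X = a.f X + b.f X := rfl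
@[simp] theorem smul_f (c : ℂ) (a : GCoch F G p) (X : C) : (c • a).f X = c • a.f X := rfl

theorem tot_add (a b : GCoch F G p) (P : CO C) (v : (F.cs P).Tot.V) :
    (a + b).tot P v = a.tot P v + b.tot P v := by
  funext k
  change sz p ^ k • (a.f (P.P k) + b.f (P.P k)) (v k) = sz p ^ k • a.f (P.P k) (v k) +
    sz p ^ k • b.f (P.P k) (v k)
  rw [LinearMap.add_apply, smul_add]

theorem tot_smul (c : ℂ) (a : GCoch F G p) (P : CO C) (v : (F.cs P).Tot.V) :
    (c • a).tot P v = c • a.tot P v := by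
  funext k
  change sz p ^ k • (c • a.f (P.P k)) (v k) = c • sz p ^ k • a.f (P.P k) (v k)
  rw [LinearMap.smul_apply, smul_comm]

end GCoch

/-- Anticommuting odd operators of degrees `- dg i` on a functor. -/
structure EOp (F : GF C) (n : ℕ) (dg : Fin n → ℤ) where
  e : ∀ i : Fin n, GCoch F F (- dg i)
  odd : ∀ i, Odd (dg i)
  ee : ∀ i j X x, (e i).f X ((e j).f X x) = - (e j).f X ((e i).f X x)
  ed : ∀ i X x, (e i).f X ((F.obj X).d x) = - (F.obj X).d ((e i).f X x)

namespace EOp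

variable {F G : GF C} {n : ℕ} {dg : Fin n → ℤ}

theorem sz_dg (E : EOp F n dg) (i : Fin n) : sz (- dg i) = -1 := by
  have h : Odd (- dg i) := (E.odd i).neg
  simp [sz, Int.negOnePow_odd _ h]

/-- The operators on the total. -/
def tot (E : EOp F n dg) (P : CO C) (i : Fin n) : (F.cs P).Tot.V →ₗ[ℂ] (F.cs P).Tot.V :=
  (E.e i).tot P

theorem tot_apply (E : EOp F n dg) (P : CO C) (i : Fin n) (v : (F.cs P).Tot.V) (k : ℕ) :
    (E.tot P i v : ∀ k, (F.obj (P.P k)).V) k = (-1 : ℂ) ^ k • (E.e i).f (P.P k) (v k) := by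
  change sz (- dg i) ^ k • (E.e i).f (P.P k) (v k) = _
  rw [E.sz_dg]

theorem tot_ee (E : EOp F n dg) (P : CO C) (i j : Fin n) (v : (F.cs P).Tot.V) :
    E.tot P i (E.tot P j v) = - E.tot P j (E.tot P i v) := by
  have h := GCoch.tot_rel (c := -1) (E.e j) (E.e i) (E.e i) (E.e j) (by rw [mul_comm])
    (fun X x => by rw [E.ee, neg_one_smul]) P v
  rw [neg_one_smul] at h
  exact h

theorem tot_ed (E : EOp F n dg) (P : CO C) (i : Fin n) (v : (F.cs P).Tot.V) :
    E.tot P i ((F.cs P).Tot.d v) = - (F.cs P).Tot.d (E.tot P i v) := by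
  have h := CS.totLin_D (X := F.cs P) (Y := F.cs P) (σ := -1) (f := fun k => (E.e i).f (P.P k))
    (fun k j _ x => (E.e i).nat (P.fc k j) x)
    (fun k x => by rw [E.ed, neg_one_smul]) v
  rw [neg_one_smul] at h
  have e : ∀ w, E.tot P i w = CS.totLin (X := F.cs P) (Y := F.cs P) (-1)
      (fun k => (E.e i).f (P.P k)) w := by
    intro w
    change CS.totLin (X := F.cs P) (Y := F.cs P) (sz (- dg i)) _ w = _
    rw [E.sz_dg]
  rw [e, e]
  exact h

theorem tot_gr (E : EOp F n dg) (P : CO C) (i : Fin n) (m : ℤ) (v : (F.cs P).Tot.V)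
    (hv : v ∈ (F.cs P).Tot.gr m) : E.tot P i v ∈ (F.cs P).Tot.gr (m - dg i) := by
  have := (E.e i).tot_gr P m v hv
  rwa [← sub_eq_add_neg] at this

/-- Cochains with `a e_i = (-1)^p e_i a`. -/
theorem tot_coch (E : EOp F n dg) (E' : EOp G n dg) {p : ℤ} (a : GCoch F G p) (i : Fin n)
    (h : ∀ X x, a.f X ((E.e i).f X x) = sz p • (E'.e i).f X (a.f X x)) (P : CO C)
    (v : (F.cs P).Tot.V) : a.tot P (E.tot P i v) = sz p • E'.tot P i (a.tot P v) :=
  GCoch.tot_rel (E.e i) a a (E'.e i) (by rw [mul_comm]) h P v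

end EOp

end

end Vale.Agent.P286.H761
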